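import Vale.Agent.P057HU.Quad

/-! The complement of a hyperplane has large weight in a fine Gaussian lattice; a popular base
point for parallelograms. -/

set_option linter.all false

open Finset Matrix
open scoped BigOperators Real
open Vale.Agent.P267.H775 Vale.Agent.P057G

namespace Vale.Agent.P057HU

variable {ι : Type*} [Fintype ι] [DecidableEq ι]

/-- the shifted sum away from the nearest point -/
theorem th_shift_le {H : Matrix ι ι ℝ} (hH : H.PosDef) (ξ : ι → ℝ) :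
    (th H ξ - gs H ξ) ^ 2 ≤ (th H 0 - 1) * (Real.exp (2 * π * qq H ξ) * th H 0) := by
  have s0 := summable_gs hH 0
  have s1 := summable_gs hH ξ
  have e0 := s0.tsum_eq_add_tsum_ite 0
  have e1 := s1.tsum_eq_add_tsum_ite 0
  simp only [toR_zero, sub_zero, gs_zero, zero_sub, gs_neg] at e0 e1
  have hb := (hasSum_th hH ((2 : ℝ) • ξ)).mul_left (Real.exp (2 * π * qq H ξ))
  have ha : Summable fun k : ι → ℤ => if k = 0 then 0 else gs H (toR k) := by
    refine Summable.of_nonneg_of_le (fun k => ?_) (fun k => ?_) (wt_gs0 hH).2 <;> split_ifs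
    exacts [le_rfl, (gs_pos _ _).le, (gs_pos _ _).le, le_rfl]
  have h := (tsum_cs (c := fun k : ι → ℤ => if k = 0 then 0 else gs H (toR k - ξ)) ha hb.summable
    (fun k => by split_ifs; exacts [le_rfl, (gs_pos _ _).le])
    (fun k => mul_nonneg (Real.exp_pos _).le (gs_pos _ _).le)
    (fun k => by split_ifs; exacts [le_rfl, (gs_pos _ _).le])
    (fun k => by
      split_ifs
      · simp
      · exact (gs_sub_sq hH.1 _ _).le)).2
  have f0 : th H 0 - 1 = ∑' k : ι → ℤ, if k = 0 then 0 else gs H (toR k) := by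
    rw [← tsum_gs0, e0]; simp
  have f1 : th H ξ - gs H ξ = ∑' k : ι → ℤ, if k = 0 then 0 else gs H (toR k - ξ) := by
    rw [th, e1]; simp
  rw [← f0, ← f1, hb.tsum_eq] at h
  refine h.trans (mul_le_mul_of_nonneg_left (mul_le_mul_of_nonneg_left (th_le_th_zero hH _)
    (Real.exp_pos _).le) ?_)
  linarith [one_le_th_zero hH]

/-- the complement of an affine hyperplane has weight at least one sixth -/
theorem hyperplane {G : Matrix ι ι ℝ} (hG : G.PosDef) (hf : th G⁻¹ 0 ≤ 1 + 1 / 500)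
    (x κ : ι → ℝ) (hκ : κ ≠ 0) (c : ℝ) :
    vol G / 6 ≤ ∑' z : ι → ℤ, gs G (toR z - x) * (if κ ⬝ᵥ toR z = c then 0 else 1) := by
  have hq : 0 < qq G⁻¹ κ := by simpa [qq] using hG.inv.dotProduct_mulVec_pos hκ
  set a : ℝ := 1 / (2 * √(qq G⁻¹ κ)) with ha
  have hq4 : qq G⁻¹ (a • κ) = 1 / 4 := by
    rw [qq_smul, ha, div_pow, mul_pow, Real.sq_sqrt hq.le]; field_simp; norm_num
  have hv := vol_pos hG
  have h1 : th G⁻¹ (a • κ) ≤ 1 / 2 + 7 / 50 := by
    have h2 := th_shift_le hG.inv (a • κ)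
    have h3 : gs G⁻¹ (a • κ) ≤ 1 / 2 := by
      rw [gs, hq4, Real.exp_neg, inv_le_comm₀ (Real.exp_pos _) (by norm_num)]
      have := Real.quadratic_le_exp_of_nonneg (x := π * (1 / 4)) (by positivity)
      nlinarith [Real.pi_gt_three]
    have h4 : Real.exp (2 * π * qq G⁻¹ (a • κ)) ≤ 9 := by
      rw [hq4]
      have h5 : 2 * π * (1 / 4) ≤ 2 := by nlinarith [Real.pi_lt_four]
      refine (Real.exp_le_exp.mpr h5).trans ?_
      have e2 : Real.exp 2 = Real.exp 1 ^ 2 := by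
        rw [← Real.exp_nat_mul]; congr 1; push_cast; ring
      have := Real.exp_one_lt_three
      nlinarith [Real.exp_pos 1]
    have h5 := one_le_th_zero hG.inv
    have h6 : (th G⁻¹ (a • κ) - gs G⁻¹ (a • κ)) ^ 2 ≤ (7 / 50) ^ 2 := by
      refine h2.trans ?_
      have h7 : Real.exp (2 * π * qq G⁻¹ (a • κ)) * th G⁻¹ 0 ≤ 9 * (1 + 1 / 500) :=
        mul_le_mul h4 hf (by linarith) (by norm_num)
      calc _ ≤ (1 / 500) * (9 * (1 + 1 / 500)) :=
            mul_le_mul (by linarith) h7 (by positivity) (by norm_num)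
        _ ≤ _ := by norm_num
    have := abs_le.mp (abs_le_of_sq_le_sq' h6 (by norm_num) |> fun h => abs_le.mpr h)
    linarith
  have w := wt_gs hG x
  have h2 := (norm_tw_le hG x (a • κ)).trans (mul_le_mul_of_nonneg_left h1 hv.le)
  have sc : Summable fun z : ι → ℤ => (gs G (toR z - x) : ℂ) * ee ((a • κ) ⬝ᵥ toR z) :=
    summable_mul_cx w.2 w.1 (fun z => (norm_ee _).le)
  have h3 : ∑' z : ι → ℤ, gs G (toR z - x) * Real.cos (2 * π * ((a • κ) ⬝ᵥ toR z - a * c)) ≤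
      vol G * (1 / 2 + 7 / 50) := by
    refine le_trans ?_ h2
    have e : ∑' z : ι → ℤ, gs G (toR z - x) * Real.cos (2 * π * ((a • κ) ⬝ᵥ toR z - a * c)) =
        ((∑' z : ι → ℤ, (gs G (toR z - x) : ℂ) * ee ((a • κ) ⬝ᵥ toR z)) * ee (-(a * c))).re := by
      rw [← tsum_mul_right, Complex.re_tsum (sc.mul_right _)]
      refine tsum_congr fun z => ?_
      rw [mul_assoc (gs G (toR z - x) : ℂ), ← ee_add, Complex.re_ofReal_mul, ee_re,
        sub_eq_add_neg ((a • κ) ⬝ᵥ toR z)]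
    rw [e]
    refine (Complex.re_le_norm _).trans ?_
    rw [norm_mul, norm_ee, mul_one]
  have hi : ∀ z : ι → ℤ, |(if κ ⬝ᵥ toR z = c then 0 else 1 : ℝ)| ≤ 1 := fun z => by
    split_ifs <;> simp
  have h4 : th G x - 2 * ∑' z : ι → ℤ, gs G (toR z - x) * (if κ ⬝ᵥ toR z = c then 0 else 1) ≤
      ∑' z : ι → ℤ, gs G (toR z - x) * Real.cos (2 * π * ((a • κ) ⬝ᵥ toR z - a * c)) := by
    rw [th, ← tsum_mul_left, ← w.2.tsum_sub ((w.summ hi).mul_left 2)]
    refine Summable.tsum_le_tsum (fun z => ?_) (w.2.sub ((w.summ hi).mul_left 2))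
      (w.summ fun z => Real.abs_cos_le_one _)
    split_ifs with hz
    · rw [smul_dotProduct, hz, smul_eq_mul]; simp
    · nlinarith [Real.neg_one_le_cos (2 * π * ((a • κ) ⬝ᵥ toR z - a * c)), gs_pos G (toR z - x)]
  have h5 := abs_le.mp (abs_th_sub_vol hG x)
  nlinarith

theorem popular_abs {R A : Type*} {u : R → ℝ} {w : A → ℝ} (hu : Wt u) (hw : Wt w)
    (a b : R → A → ℝ) (ha : ∀ r t, |a r t| ≤ 1) (hb : ∀ r t, |b r t| ≤ 1) (c : ℝ)
    (h : (∑' r, u r) * c < ∑' r, u r * ∑' t, w t * a r t - ∑' r, u r * ∑' t, w t * b r t) :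
    ∃ r, c < ∑' t, (w t * a r t - w t * b r t) := by
  have sA := hu.summ (fun r => hw.abs_le (ha r))
  have sB := hu.summ (fun r => hw.abs_le (hb r))
  obtain ⟨r, hr⟩ := hu.exists_ge (c := c)
    (F := fun r => ∑' t, w t * a r t - ∑' t, w t * b r t)
    (C := (∑' t, w t) * 1 + (∑' t, w t) * 1)
    (fun r => (abs_sub _ _).trans (add_le_add (hw.abs_le (ha r)) (hw.abs_le (hb r)))) (by
      simp only [mul_sub]
      rwa [sA.tsum_sub sB])
  exact ⟨r, by rwa [(hw.summ (ha r)).tsum_sub (hw.summ (hb r))]⟩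

theorem tsum_le_shift {A : Type*} [AddCommGroup A] {f g : A → ℝ} (h : A) (hf : Summable f)
    (hg : Summable g) (hfg : ∀ t, f t ≤ g (t + h)) : ∑' t, f t ≤ ∑' t, g t := by
  rw [← (Equiv.addRight h).tsum_eq g]
  exact hf.tsum_le_tsum hfg ((Equiv.addRight h).summable_iff.mpr hg)

theorem popular_num {β η v v' A B m T T' : ℝ} (hβ : 0 < β) (hv : 0 < v) (hv' : 0 < v')
    (hA : 0 ≤ A) (hT0 : 0 ≤ T) (hT0' : 0 ≤ T') (hT : T ≤ 2 * v) (hT' : T' ≤ 2 * v')
    (h1 : (β * v * v' / 2) ^ 4 ≤ T ^ 2 * T' ^ 2 * A) (hη : η ≤ β ^ 4 / 512)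
    (hB : B ≤ η * (v ^ 2 * v' ^ 2)) (hm : m ≤ T' * T' * T) :
    m * (β ^ 4 / 8192 * v) < A - B := by
  have hA1 : β ^ 4 / 256 * (v ^ 2 * v' ^ 2) ≤ A := by
    have h2 : T ^ 2 * T' ^ 2 ≤ (2 * v) ^ 2 * (2 * v') ^ 2 := by gcongr
    have h3 := h1.trans (mul_le_mul_of_nonneg_right h2 hA)
    have h4 : 0 < (2 * v) ^ 2 * (2 * v') ^ 2 := by positivity
    refine le_of_mul_le_mul_left (le_trans (le_of_eq ?_) h3) h4
    ring
  have hm2 : m ≤ 2 * v' * (2 * v') * (2 * v) := hm.trans (by gcongr)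
  have h6 := mul_le_mul_of_nonneg_right hm2 (by positivity : 0 ≤ β ^ 4 / 8192 * v)
  have h7 := mul_le_mul_of_nonneg_right hη (by positivity : 0 ≤ v ^ 2 * v' ^ 2)
  have h8 : 0 < β ^ 4 * (v ^ 2 * v' ^ 2) := by positivity
  nlinarith

/-- A popular base point: if the bad parallelograms have small weight, then for some
`t', h, h'` many `t` give a good parallelogram inside the set. -/
theorem quad_popular {G : Matrix ι ι ℝ} (hG : G.PosDef) {lam β η : ℝ} (h0 : 0 < lam)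
    (hl : (Fintype.card ι : ℝ) ≤ lam) (hβ : 0 < β) (hf : th G⁻¹ 0 ≤ 2)
    (hf' : th (lam • G)⁻¹ 0 ≤ 2) (x : ι → ℝ) (S : Set (ι → ℤ))
    (hw : β * vol G ≤ ∑' z, S.indicator (fun y => gs G (toR y - x)) z)
    (bad : (ι → ℤ) → (ι → ℤ) → (ι → ℤ) → (ι → ℤ) → Prop) [∀ a b c d, Decidable (bad a b c d)]
    (hη : η ≤ β ^ 4 / 512)
    (hbad : ∑' r : ((ι → ℤ) × (ι → ℤ)) × (ι → ℤ),
        gs (lam • G) (toR r.1.1) * gs (lam • G) (toR r.1.2) * gs G (toR r.2 - x) *
          ∑' t, gs G (toR t - x) * (if bad t r.2 r.1.1 r.1.2 then 1 else 0) ≤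
        η * (vol G ^ 2 * vol (lam • G) ^ 2)) :
    ∃ t' h h' : ι → ℤ, t' + h ∈ S ∧ t' + h' ∈ S ∧ β ^ 4 / 8192 * vol G ≤
      ∑' z, {p | p ∈ S ∧ p - h + h' ∈ S ∧ ¬ bad (p - h) t' h h'}.indicator
        (fun y => gs G (toR y - (x + toR h))) z := by
  classical
  have hlG : (lam • G).PosDef := hG.smul h0
  have hv := vol_pos hG
  have hv' := vol_pos hlG
  obtain ⟨s, hs⟩ : ∃ s : (ι → ℤ) → ℝ, s = fun z => if z ∈ S then 1 else 0 := ⟨_, rfl⟩
  have hs0 : ∀ z, 0 ≤ s z := fun z => by simp only [hs]; split_ifs <;> norm_num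
  have hs1 : ∀ z, s z ≤ 1 := fun z => by simp only [hs]; split_ifs <;> norm_num
  have h1 := quad_count hG h0 hl hβ.le x s hs0 hs1 (hw.trans (le_of_eq (tsum_congr fun z => by
    simp [hs, Set.indicator_apply])))
  have t1 : th G 0 ≤ 2 * vol G := by rw [th_zero_eq hG]; nlinarith
  have t2 : th (lam • G) 0 ≤ 2 * vol (lam • G) := by rw [th_zero_eq hlG]; nlinarith
  have wG := wt_gs hG x
  have wR := ((wt_gs0 hlG).prod (wt_gs0 hlG)).prod wG
  have ha0 : ∀ p q r t, 0 ≤ s p * s q * (s r * s t) := fun _ _ _ _ =>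
    mul_nonneg (mul_nonneg (hs0 _) (hs0 _)) (mul_nonneg (hs0 _) (hs0 _))
  have ha1 : ∀ p q r t, |s p * s q * (s r * s t)| ≤ 1 := fun p q r t => by
    rw [abs_of_nonneg (ha0 p q r t)]
    exact mul_le_one₀ (mul_le_one₀ (hs1 _) (hs0 _) (hs1 _)) (mul_nonneg (hs0 _) (hs0 _))
      (mul_le_one₀ (hs1 _) (hs0 _) (hs1 _))
  have hb1 : ∀ (p : Prop) [Decidable p], |(if p then 1 else 0 : ℝ)| ≤ 1 := fun p _ => by
    split_ifs <;> simp
  have hm : ∑' r : ((ι → ℤ) × (ι → ℤ)) × (ι → ℤ),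
      gs (lam • G) (toR r.1.1) * gs (lam • G) (toR r.1.2) * gs G (toR r.2 - x) ≤
        th (lam • G) 0 * th (lam • G) 0 * th G 0 := by
    rw [((wt_gs0 hlG).prod (wt_gs0 hlG)).tsum_prod wG, (wt_gs0 hlG).tsum_prod (wt_gs0 hlG),
      tsum_gs0]
    exact mul_le_mul_of_nonneg_left (th_le_th_zero hG x)
      (mul_nonneg (th_nonneg _ _) (th_nonneg _ _))
  have hnum := popular_num hβ hv hv' (tsum_nonneg fun r => mul_nonneg (wR.1 r)
      (tsum_nonneg fun t => mul_nonneg (wG.1 t) (ha0 _ _ _ _))) (th_nonneg _ _) (th_nonneg _ _)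
      t1 t2 h1 hη hbad hm
  obtain ⟨r, hr⟩ := popular_abs wR wG
    (fun r t => s (t + r.1.1) * s (t + r.1.2) * (s (r.2 + r.1.1) * s (r.2 + r.1.2)))
    (fun r t => if bad t r.2 r.1.1 r.1.2 then 1 else 0) (fun _ _ => ha1 _ _ _ _)
    (fun _ _ => hb1 _) (β ^ 4 / 8192 * vol G) (by beta_reduce; exact hnum)
  obtain ⟨⟨h, h'⟩, t'⟩ := r
  simp only at hr
  have hpos : 0 < β ^ 4 / 8192 * vol G := by positivity
  have hin : t' + h ∈ S ∧ t' + h' ∈ S := by
    by_contra hno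
    have hz : s (t' + h) * s (t' + h') = 0 := by
      rcases not_and_or.mp hno with h | h <;> simp [hs, h]
    rw [hz] at hr
    refine absurd (hpos.trans hr) (not_lt.mpr (tsum_nonpos fun t => ?_))
    rw [mul_zero, mul_zero, zero_sub, neg_nonpos]
    exact mul_nonneg (wG.1 t) (by split_ifs <;> norm_num)
  refine ⟨t', h, h', hin.1, hin.2, hr.le.trans ?_⟩
  have s1 : Summable fun t : ι → ℤ =>
      gs G (toR t - x) * (s (t + h) * s (t + h') * (s (t' + h) * s (t' + h'))) :=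
    wG.summ (fun _ => ha1 _ _ _ _)
  have s2 : Summable fun t : ι → ℤ => gs G (toR t - x) * (if bad t t' h h' then 1 else 0) :=
    wG.summ (fun _ => hb1 _)
  refine tsum_le_shift h (s1.sub s2) ((summable_gs hG (x + toR h)).indicator _) fun t => ?_
  have e : toR (t + h) - (x + toR h) = toR t - x := by rw [toR_add]; abel
  have hg := gs_pos G (toR t - x)
  have := abs_le.mp (ha1 (t + h) (t + h') (t' + h) (t' + h'))
  simp only [Set.indicator_apply, Set.mem_setOf_eq, add_sub_cancel_right, e]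
  by_cases hb : bad t t' h h'
  · simp only [hb, if_true, not_true, and_false, if_false]; nlinarith
  · by_cases h1 : t + h ∈ S
    · by_cases h2 : t + h' ∈ S
      · simp only [hb, h1, h2, if_false, not_false_iff, and_true, if_true]; nlinarith
      · simp [hs, hb, h2]
    · simp [hs, hb, h1]

end Vale.Agent.P057HU
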