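import Vale.Agent.P057HU.Gau
import Vale.Agent.P057G.Tri

/-! Counting parallelograms with narrow sides in a dense set, and the weight of a hyperplane. -/

set_option linter.all false

open Finset Matrix
open scoped BigOperators Real
open Vale.Agent.P267.H775 Vale.Agent.P057G

namespace Vale.Agent.P057HU

/-- a summable nonnegative weight -/
def Wt {A : Type*} (w : A → ℝ) : Prop := (∀ x, 0 ≤ w x) ∧ Summable w

theorem Wt.prod {A B : Type*} {w : A → ℝ} {m : B → ℝ} (hw : Wt w) (hm : Wt m) :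
    Wt (fun p : A × B => w p.1 * m p.2) :=
  ⟨fun p => mul_nonneg (hw.1 _) (hm.1 _), hw.2.mul_of_nonneg hm.2 hw.1 hm.1⟩

theorem Wt.summ {A : Type*} {w : A → ℝ} (hw : Wt w) {F : A → ℝ} {C : ℝ} (hF : ∀ x, |F x| ≤ C) :
    Summable fun x => w x * F x := summable_mul_real hw.2 hw.1 hF

theorem Wt.abs_le {A : Type*} {w : A → ℝ} (hw : Wt w) {F : A → ℝ} {C : ℝ} (hF : ∀ x, |F x| ≤ C) :
    |∑' x, w x * F x| ≤ (∑' x, w x) * C := by
  rw [← Real.norm_eq_abs]
  refine tsum_of_norm_bounded (hw.2.hasSum.mul_right C) fun x => ?_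
  rw [Real.norm_eq_abs, abs_mul, abs_of_nonneg (hw.1 x)]
  exact mul_le_mul_of_nonneg_left (hF x) (hw.1 x)

theorem Wt.fub {A B : Type*} {w : A → ℝ} {m : B → ℝ} (hw : Wt w) (hm : Wt m) {F : A × B → ℝ}
    {C : ℝ} (hF : ∀ p, |F p| ≤ C) :
    ∑' p : A × B, w p.1 * m p.2 * F p = ∑' x, w x * ∑' y, m y * F (x, y) := by
  rw [((hw.prod hm).summ hF).tsum_prod]
  refine tsum_congr fun x => ?_
  rw [← tsum_mul_left]
  exact tsum_congr fun y => mul_assoc _ _ _

theorem Wt.swap {A B : Type*} {w : A → ℝ} {m : B → ℝ} (hw : Wt w) (hm : Wt m) {F : A → B → ℝ}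
    {C : ℝ} (hF : ∀ x y, |F x y| ≤ C) :
    ∑' x, w x * ∑' y, m y * F x y = ∑' y, m y * ∑' x, w x * F x y := by
  rw [← hw.fub hm (F := fun p => F p.1 p.2) (fun p => hF _ _),
    ← hm.fub hw (F := fun p => F p.2 p.1) (fun p => hF _ _), ← (Equiv.prodComm B A).tsum_eq]
  refine tsum_congr fun p => ?_
  simp only [Equiv.prodComm_apply, Prod.fst_swap, Prod.snd_swap]
  ring

theorem Wt.tsum_prod {A B : Type*} {w : A → ℝ} {m : B → ℝ} (hw : Wt w) (hm : Wt m) :
    ∑' p : A × B, w p.1 * m p.2 = (∑' x, w x) * ∑' y, m y := by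
  have := hw.fub hm (F := fun _ => 1) (C := 1) (fun _ => by simp)
  simpa [tsum_mul_right] using this

theorem Wt.sq {A : Type*} {w : A → ℝ} (hw : Wt w) {F : A → ℝ} {C : ℝ} (hF : ∀ x, |F x| ≤ C) :
    (∑' x, w x * F x) ^ 2 = ∑' p : A × A, w p.1 * w p.2 * (F p.1 * F p.2) := by
  rw [hw.fub hw (C := C * C) (fun p => by
    rw [abs_mul]; exact mul_le_mul (hF _) (hF _) (abs_nonneg _) ((abs_nonneg _).trans (hF p.1)))]
  rw [pow_two, ← tsum_mul_right]
  refine tsum_congr fun x => ?_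
  rw [mul_assoc, ← tsum_mul_left]
  congr 1
  exact tsum_congr fun y => by ring

theorem Wt.cs {A : Type*} {w : A → ℝ} (hw : Wt w) {F : A → ℝ} {C : ℝ} (hF : ∀ x, |F x| ≤ C) :
    (∑' x, w x * F x) ^ 2 ≤ (∑' x, w x) * ∑' x, w x * F x ^ 2 := by
  have h := norm_tsum_sq_le (f := F) hw.2 hw.1 (hw.summ (C := C ^ 2) fun x => by
    rw [abs_pow, abs_norm, Real.norm_eq_abs]; exact pow_le_pow_left₀ (abs_nonneg _) (hF x) 2)
  simpa [Real.norm_eq_abs, sq_abs] using h

/-- some point is at least average -/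
theorem Wt.exists_ge {A : Type*} {w : A → ℝ} (hw : Wt w) {F : A → ℝ} {C c : ℝ}
    (hF : ∀ x, |F x| ≤ C) (h : (∑' x, w x) * c < ∑' x, w x * F x) : ∃ x, c < F x := by
  by_contra hno
  push Not at hno
  refine absurd h (not_lt.mpr ?_)
  rw [← tsum_mul_right]
  exact (hw.summ hF).tsum_le_tsum (fun x => mul_le_mul_of_nonneg_left (hno x) (hw.1 x))
    (hw.2.mul_right c)

/-- two applications of the Cauchy-Schwarz inequality -/
theorem quad_cs {A B : Type*} {w : A → ℝ} {m : B → ℝ} (hw : Wt w) (hm : Wt m) (s : A → B → ℝ)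
    (hs : ∀ x y, |s x y| ≤ 1) :
    (∑' x, w x * ∑' y, m y * s x y) ^ 4 ≤ (∑' x, w x) ^ 2 * (∑' y, m y) ^ 2 *
      ∑' r : (B × B) × A, m r.1.1 * m r.1.2 * w r.2 *
        ∑' x, w x * (s x r.1.1 * s x r.1.2 * (s r.2 r.1.1 * s r.2 r.1.2)) := by
  have hss : ∀ x (h : B × B), |s x h.1 * s x h.2| ≤ 1 := fun x h => by
    rw [abs_mul]; exact mul_le_one₀ (hs _ _) (abs_nonneg _) (hs _ _)
  have h1 := hw.cs (F := fun x => ∑' y, m y * s x y) (fun x => hm.abs_le (hs x))
  simp only [fun x => hm.sq (hs x)] at h1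
  rw [hw.swap (hm.prod hm) (F := fun x h => s x h.1 * s x h.2) hss] at h1
  have h2 := (hm.prod hm).cs (F := fun h => ∑' x, w x * (s x h.1 * s x h.2))
    (fun h => hw.abs_le (fun x => hss x h))
  rw [hm.tsum_prod hm] at h2
  have h3 : ∑' r : (B × B) × A, m r.1.1 * m r.1.2 * w r.2 *
        ∑' x, w x * (s x r.1.1 * s x r.1.2 * (s r.2 r.1.1 * s r.2 r.1.2)) =
      ∑' h : B × B, m h.1 * m h.2 * (∑' x, w x * (s x h.1 * s x h.2)) ^ 2 := by
    rw [(hm.prod hm).fub hw (F := fun r => ∑' x, w x *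
      (s x r.1.1 * s x r.1.2 * (s r.2 r.1.1 * s r.2 r.1.2))) (fun r => hw.abs_le (C := 1)
      (fun x => by rw [abs_mul]; exact mul_le_one₀ (hss x r.1) (abs_nonneg _) (hss r.2 r.1)))]
    refine tsum_congr fun h => ?_
    congr 1
    rw [pow_two, ← tsum_mul_right]
    refine tsum_congr fun x => ?_
    rw [mul_assoc]
    congr 1
    rw [← tsum_mul_left]
    exact tsum_congr fun y => by ring
  rw [h3]
  have hw0 : 0 ≤ ∑' x, w x := tsum_nonneg hw.1
  calc _ = ((∑' x, w x * ∑' y, m y * s x y) ^ 2) ^ 2 := by ring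
    _ ≤ ((∑' x, w x) * ∑' h : B × B, m h.1 * m h.2 * ∑' x, w x * (s x h.1 * s x h.2)) ^ 2 :=
        pow_le_pow_left₀ (sq_nonneg _) h1 2
    _ ≤ _ := by
        rw [mul_pow, mul_assoc]
        refine mul_le_mul_of_nonneg_left ?_ (sq_nonneg _)
        rw [pow_two (∑' y, m y)]
        exact h2

variable {ι : Type*} [Fintype ι] [DecidableEq ι]

theorem wt_gs {G : Matrix ι ι ℝ} (hG : G.PosDef) (x : ι → ℝ) :
    Wt (fun z : ι → ℤ => gs G (toR z - x)) := ⟨fun _ => (gs_pos _ _).le, summable_gs hG x⟩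

theorem wt_gs0 {G : Matrix ι ι ℝ} (hG : G.PosDef) : Wt (fun z : ι → ℤ => gs G (toR z)) := by
  simpa using wt_gs hG 0

theorem tsum_gs0 (G : Matrix ι ι ℝ) : ∑' z : ι → ℤ, gs G (toR z) = th G 0 := by simp [th]

theorem gs_cosh {G : Matrix ι ι ℝ} (hG : G.IsHermitian) (u v : ι → ℝ) :
    2 * (gs G u * gs G v) ≤ gs G (u - v) + gs G (u + v) := by
  have h1 := gs_sub_eq hG u v
  have h2 := gs_sub_eq hG u (-v)
  have h3 : bb G u (-v) = -bb G u v := by simp [bb, mulVec_neg]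
  rw [sub_neg_eq_add, h3, qq_neg] at h2
  rw [h1, h2, Real.exp_sub, Real.exp_sub]
  have h4 : gs G v = (Real.exp (π * qq G v))⁻¹ := by rw [gs, Real.exp_neg]
  have h5 := Real.add_one_le_exp (2 * π * bb G u v)
  have h6 := Real.add_one_le_exp (2 * π * -bb G u v)
  have h7 := mul_pos (gs_pos G u) (gs_pos G v)
  rw [div_eq_mul_inv, div_eq_mul_inv, ← h4]
  nlinarith

/-- smoothing a set by a centred Gaussian keeps its weight -/
theorem smooth_weight {G H : Matrix ι ι ℝ} (hG : G.PosDef) (hH : H.PosDef) (x : ι → ℝ)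
    (s : (ι → ℤ) → ℝ) (hs0 : ∀ z, 0 ≤ s z) (hs : ∀ z, s z ≤ 1) :
    (∑' z, gs G (toR z - x) * s z) * th (G + H) 0 ≤
      ∑' t, gs G (toR t - x) * ∑' h, gs H (toR h) * s (t + h) := by
  have hs1 : ∀ z, |s z| ≤ 1 := fun z => by rw [abs_of_nonneg (hs0 z)]; exact hs z
  have hg1 : ∀ u, |gs G u| ≤ 1 := fun u => by
    rw [abs_of_pos (gs_pos _ _)]; exact gs_le_one hG.posSemidef u
  have wG := wt_gs hG x
  have wH := wt_gs0 hH
  have key : ∀ ε : ℤˣ, ∑' t, gs G (toR t - x) * ∑' h, gs H (toR h) * s (t + h) =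
      ∑' h, gs H (toR h) * ∑' z, gs G (toR z - x - toR (ε • h)) * s z := by
    intro ε
    rw [wG.swap wH (F := fun t h => s (t + h)) (fun _ _ => hs1 _)]
    have e : ∀ h : ι → ℤ, ∑' t, gs G (toR t - x) * s (t + h) =
        ∑' z, gs G (toR z - x - toR h) * s z := by
      intro h
      rw [← (Equiv.addRight h).tsum_eq (fun z => gs G (toR z - x - toR h) * s z)]
      refine tsum_congr fun t => ?_
      simp only [Equiv.coe_addRight, toR_add]
      congr 2; abel
    simp only [e]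
    rcases Int.units_eq_one_or ε with rfl | rfl
    · simp
    · rw [← (Equiv.neg (ι → ℤ)).tsum_eq]
      simp [toR_neg, gs_neg]
  have hb : ∀ v : ι → ℝ, |∑' z, gs G (toR z - x - v) * s z| ≤ th G 0 * 1 := by
    intro v
    have h1 := (wt_gs hG (x + v)).abs_le hs1
    simp only [← sub_sub] at h1
    refine h1.trans (mul_le_mul_of_nonneg_right ?_ zero_le_one)
    have := th_le_th_zero hG (x + v)
    simpa [th, sub_sub] using this
  have k1 := key 1
  have k2 := key (-1)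
  simp only [one_smul, Units.neg_smul, toR_neg, sub_neg_eq_add] at k1 k2
  have s1 := wH.summ (fun h : ι → ℤ => hb (toR h))
  have s2 := wH.summ (fun h : ι → ℤ => hb (-toR h))
  simp only [sub_neg_eq_add] at s2
  have h2 : ∑' h : ι → ℤ, 2 * ((∑' z, gs G (toR z - x) * s z) * gs (G + H) (toR h)) ≤
      ∑' h : ι → ℤ, (gs H (toR h) * ∑' z, gs G (toR z - x - toR h) * s z +
        gs H (toR h) * ∑' z, gs G (toR z - x + toR h) * s z) := by
    refine Summable.tsum_le_tsum (fun h => ?_)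
      (((wt_gs0 (hG.add hH)).2.mul_left _).mul_left _) (s1.add s2)
    have a1 : Summable fun z => gs G (toR z - x - toR h) * s z := by
      simpa only [← sub_sub] using (wt_gs hG (x + toR h)).summ hs1
    have a2 : Summable fun z => gs G (toR z - x + toR h) * s z := by
      simpa only [sub_sub_eq_add_sub, ← sub_add_eq_add_sub] using (wt_gs hG (x - toR h)).summ hs1
    rw [← mul_add, ← a1.tsum_add a2, gs_add_mat]
    have h3 : 2 * ((∑' z, gs G (toR z - x) * s z) * gs G (toR h)) ≤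
        ∑' z, (gs G (toR z - x - toR h) * s z + gs G (toR z - x + toR h) * s z) := by
      rw [← tsum_mul_right, ← tsum_mul_left]
      refine Summable.tsum_le_tsum (fun z => ?_) (((wG.summ hs1).mul_right _).mul_left _)
        (a1.add a2)
      have := mul_le_mul_of_nonneg_right (gs_cosh hG.1 (toR z - x) (toR h)) (hs0 z)
      linarith
    have := mul_le_mul_of_nonneg_left h3 (gs_pos H (toR h)).le
    linarith
  rw [s1.tsum_add s2, ← k1, ← k2, tsum_mul_left, tsum_mul_left, tsum_gs0] at h2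
  linarith

/-- adding the wide form to a narrow one costs at most a factor two -/
theorem vol_narrow {G : Matrix ι ι ℝ} (hG : G.PosDef) {lam : ℝ} (h0 : 0 < lam)
    (hl : (Fintype.card ι : ℝ) ≤ lam) : vol (lam • G) / 2 ≤ th (G + lam • G) 0 := by
  have e : G + lam • G = (1 + lam⁻¹) • (lam • G) := by
    rw [add_smul, one_smul, smul_smul, inv_mul_cancel₀ h0.ne', one_smul, add_comm]
  have hp : 0 < 1 + lam⁻¹ := by positivity
  have hlG : (lam • G).PosDef := hG.smul h0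
  rw [e]
  refine le_trans ?_ (vol_le_th_zero (hlG.smul hp))
  rw [vol_smul hp, div_eq_inv_mul]
  refine mul_le_mul_of_nonneg_right ?_ (vol_pos hlG).le
  rw [inv_pow, inv_le_inv₀ (by norm_num) (by positivity)]
  have h1 : √(1 + lam⁻¹) ≤ Real.exp (lam⁻¹ / 2) := by
    rw [Real.sqrt_le_iff]
    refine ⟨(Real.exp_pos _).le, ?_⟩
    rw [← Real.exp_nat_mul]
    have := Real.add_one_le_exp lam⁻¹
    have e2 : ((2 : ℕ) : ℝ) * (lam⁻¹ / 2) = lam⁻¹ := by push_cast; ring
    rw [e2]; linarith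
  refine (pow_le_pow_left₀ (Real.sqrt_nonneg _) h1 _).trans ?_
  rw [← Real.exp_nat_mul]
  have h3 : (Fintype.card ι : ℝ) * (lam⁻¹ / 2) ≤ 1 / 2 := by
    have : (Fintype.card ι : ℝ) * lam⁻¹ ≤ 1 := by
      rw [← div_eq_mul_inv, div_le_one h0]; exact hl
    linarith
  refine (Real.exp_le_exp.mpr h3).trans ?_
  have h4 := Real.exp_one_lt_three
  have e2 : Real.exp 1 = Real.exp (1 / 2) ^ 2 := by
    rw [← Real.exp_nat_mul]; congr 1; push_cast; ring
  nlinarith [Real.exp_pos (1 / 2)]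

/-- Parallelograms `t + h, t + h', t' + h, t' + h'` with narrow `h, h'` in a dense set. -/
theorem quad_count {G : Matrix ι ι ℝ} (hG : G.PosDef) {lam β : ℝ} (h0 : 0 < lam)
    (hl : (Fintype.card ι : ℝ) ≤ lam) (hβ : 0 ≤ β) (x : ι → ℝ) (s : (ι → ℤ) → ℝ)
    (hs0 : ∀ z, 0 ≤ s z) (hs : ∀ z, s z ≤ 1) (hw : β * vol G ≤ ∑' z, gs G (toR z - x) * s z) :
    (β * vol G * vol (lam • G) / 2) ^ 4 ≤ th G 0 ^ 2 * th (lam • G) 0 ^ 2 *
      ∑' r : ((ι → ℤ) × (ι → ℤ)) × (ι → ℤ),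
        gs (lam • G) (toR r.1.1) * gs (lam • G) (toR r.1.2) * gs G (toR r.2 - x) *
          ∑' t, gs G (toR t - x) *
            (s (t + r.1.1) * s (t + r.1.2) * (s (r.2 + r.1.1) * s (r.2 + r.1.2))) := by
  have hlG : (lam • G).PosDef := hG.smul h0
  have h1 := quad_cs (wt_gs hG x) (wt_gs0 hlG) (fun t h => s (t + h))
    (fun _ _ => by rw [abs_of_nonneg (hs0 _)]; exact hs _)
  have h2 := smooth_weight hG hlG x s hs0 hs
  have h3 := vol_narrow hG h0 hl
  have hv := vol_pos hG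
  have hv' := vol_pos hlG
  have h4 : β * vol G * vol (lam • G) / 2 ≤
      ∑' t, gs G (toR t - x) * ∑' h, gs (lam • G) (toR h) * s (t + h) := by
    refine le_trans ?_ h2
    rw [mul_div_assoc]
    exact mul_le_mul hw h3 (by positivity) (le_trans (by positivity) hw)
  refine (pow_le_pow_left₀ (by positivity) h4 4).trans (h1.trans ?_)
  rw [tsum_gs0]
  refine mul_le_mul_of_nonneg_right (mul_le_mul_of_nonneg_right
    (pow_le_pow_left₀ (th_nonneg G x) (th_le_th_zero hG x) 2) (sq_nonneg _)) ?_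
  refine tsum_nonneg fun r => mul_nonneg (mul_nonneg (mul_nonneg (gs_pos _ _).le (gs_pos _ _).le)
    (gs_pos _ _).le) (tsum_nonneg fun t => mul_nonneg (gs_pos _ _).le ?_)
  exact mul_nonneg (mul_nonneg (hs0 _) (hs0 _)) (mul_nonneg (hs0 _) (hs0 _))

end Vale.Agent.P057HU
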