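import Vale.Agent.P057HU.Split
import Vale.Agent.P057G.Sq

/-! Gaussian versions: bias gives a close dual vector, fineness gives a covering radius, shifted
weights of a dense set, and the bilinear estimate on a fine Gaussian lattice. -/

set_option linter.all false

open Finset Matrix
open scoped BigOperators Real
open Vale.Agent.P267.H775 Vale.Agent.P057G

namespace Vale.Agent.P057HU

variable {ι : Type*} [Fintype ι] [DecidableEq ι]

theorem zc_eq (z : ι → ℤ) : zc z = toR z := rfl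

/-- the Gram norm is a Euclidean norm -/
theorem exists_T {G : Matrix ι ι ℝ} (hG : G.PosDef) :
    ∃ T : (ι → ℝ) →ₗ[ℝ] EuclideanSpace ℝ ι, Function.Injective T ∧ ∀ y, ‖T y‖ = √(qq G y) := by
  obtain ⟨M, hM, rfl⟩ := exists_sqrt hG
  refine ⟨(WithLp.linearEquiv 2 ℝ (ι → ℝ)).symm.toLinearMap.comp M.mulVecLin, ?_, fun y => ?_⟩
  · refine (WithLp.linearEquiv 2 ℝ (ι → ℝ)).symm.injective.comp ?_
    exact Matrix.mulVec_injective_iff_isUnit.mpr
      ((Matrix.isUnit_iff_isUnit_det M).mpr (IsUnit.mk0 _ hM))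
  · rw [qq_mul, EuclideanSpace.norm_eq]
    simp

/-- a closest lattice point -/
theorem exists_closest {G : Matrix ι ι ℝ} (hG : G.PosDef) (ξ : ι → ℝ) :
    ∃ k : ι → ℤ, ∀ j : ι → ℤ, qq G (toR k - ξ) ≤ qq G (toR j - ξ) := by
  have h := (summable_gs hG ξ).tendsto_cofinite_zero
  have h1 : {j : ι → ℤ | ¬ gs G (toR j - ξ) < gs G (toR 0 - ξ)}.Finite :=
    Filter.eventually_cofinite.mp (h.eventually (gt_mem_nhds (gs_pos _ _)))
  obtain ⟨k, hk, hmin⟩ := h1.exists_minimalFor (fun j => qq G (toR j - ξ)) _ ⟨0, by simp⟩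
  refine ⟨k, fun j => ?_⟩
  by_contra hlt
  push Not at hlt
  have hj : ¬ gs G (toR j - ξ) < gs G (toR 0 - ξ) := by
    intro h2
    exact hk ((gs_mono hlt.le).trans_lt h2)
  exact absurd (hmin hj hlt.le) (not_le.mpr hlt)

/-- the shifted sum decays with the distance to the lattice -/
theorem th_le_of_closest {G : Matrix ι ι ℝ} (hG : G.PosDef) (ξ : ι → ℝ) (k : ι → ℤ)
    (hk : ∀ j : ι → ℤ, qq G (toR k - ξ) ≤ qq G (toR j - ξ)) :
    th G ξ ≤ Real.exp (-(π * qq G (toR k - ξ) / 2)) * th ((1 / 8 : ℝ) • G) 0 := by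
  have h8 : ((1 / 8 : ℝ) • G).PosDef := hG.smul (by norm_num)
  have e : th ((1 / 8 : ℝ) • G) 0 = th ((1 / 8 : ℝ) • G) (toR k) := by
    rw [← th_add_toR _ 0 k, zero_add]
  rw [e]
  refine hasSum_le (fun j => ?_) (hasSum_th hG ξ) ((hasSum_th h8 (toR k)).mul_left _)
  unfold gs
  rw [← Real.exp_add, Real.exp_le_exp, qq_smul_mat]
  have h1 := hk j
  have h2 : qq G (toR j - toR k) ≤ 2 * qq G (toR j - ξ) + 2 * qq G (toR k - ξ) := by
    have e1 : toR j - toR k = (toR j - ξ) - (toR k - ξ) := by abel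
    have h3 := qq_nonneg hG.posSemidef ((toR j - ξ) + (toR k - ξ))
    rw [qq_add hG.1] at h3
    rw [e1, qq_sub hG.1]
    linarith
  nlinarith [Real.pi_pos]

/-- a large shifted sum forces a close lattice point -/
theorem near_of_th {G : Matrix ι ι ℝ} (hG : G.PosDef) (h8 : th ((1 / 8 : ℝ) • G) 0 ≤ 2)
    (ξ : ι → ℝ) {δ : ℝ} (hδ : 0 < δ) (h : δ ≤ th G ξ) :
    ∃ k : ι → ℤ, π * qq G (toR k - ξ) ≤ 2 * Real.log (2 / δ) := by
  obtain ⟨k, hk⟩ := exists_closest hG ξ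
  refine ⟨k, ?_⟩
  have h1 := h.trans ((th_le_of_closest hG ξ k hk).trans
    (mul_le_mul_of_nonneg_left h8 (Real.exp_pos _).le))
  have h2 : Real.exp (π * qq G (toR k - ξ) / 2) ≤ 2 / δ := by
    rw [le_div_iff₀ hδ]
    rw [Real.exp_neg, inv_mul_eq_div, le_div_iff₀ (Real.exp_pos _)] at h1
    linarith
  have h3 := (Real.le_log_iff_exp_le (by positivity)).mpr h2
  linarith

/-- bias of a linear phase forces a close dual vector -/
theorem near_of_bias {G : Matrix ι ι ℝ} (hG : G.PosDef) (h8 : th ((8 : ℝ) • G)⁻¹ 0 ≤ 2)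
    (x ξ : ι → ℝ) {δ : ℝ} (hδ : 0 < δ)
    (h : δ * vol G ≤ ‖∑' z : ι → ℤ, (gs G (toR z - x) : ℂ) * ee (ξ ⬝ᵥ toR z)‖) :
    ∃ k : ι → ℤ, π * qq G⁻¹ (toR k - ξ) ≤ 2 * Real.log (2 / δ) := by
  refine near_of_th hG.inv ?_ ξ hδ ?_
  · rwa [inv_smul_mat (by norm_num) hG, ← one_div] at h8
  · have := h.trans (norm_tw_le hG x ξ)
    rw [mul_comm] at this
    exact le_of_mul_le_mul_left this (vol_pos hG)

/-- a fine lattice has a small covering radius -/
theorem cover_of_fine {G : Matrix ι ι ℝ} (hG : G.PosDef) (hf : th G⁻¹ 0 ≤ 3 / 2) (x : ι → ℝ) :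
    ∃ z : ι → ℤ, qq G (toR z - x) ≤ Fintype.card ι + 1 := by
  by_contra hno
  push Not at hno
  have h1 := tail_norm hG x (Fintype.card ι + 1)
  simp only [fun z => (hno z).le, if_true] at h1
  have h2 := abs_le.mp (abs_th_sub_vol hG x)
  have hv := vol_pos hG
  have h3 : vol G / 2 ≤ th G x := by nlinarith
  have h4 : th G 0 ≤ 3 / 2 * vol G := by rw [th_zero_eq hG]; nlinarith
  have h5 : Real.exp (-(π / 2)) ≤ 1 / 4 := by
    rw [Real.exp_neg, inv_le_comm₀ (Real.exp_pos _) (by norm_num)]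
    have := Real.quadratic_le_exp_of_nonneg (x := π / 4) (by positivity)
    have e : Real.exp (π / 2) = Real.exp (π / 4) ^ 2 := by
      rw [← Real.exp_nat_mul]; congr 1; push_cast; ring
    have h6 : 2 ≤ Real.exp (π / 4) := by nlinarith [Real.pi_gt_three]
    rw [e]; nlinarith
  have h6 : Real.exp (-(π * (Fintype.card ι + 1) / 2)) * √2 ^ Fintype.card ι ≤ 1 / 4 := by
    have e : Real.exp (-(π * (Fintype.card ι + 1) / 2)) =
        Real.exp (-(π / 2)) ^ Fintype.card ι * Real.exp (-(π / 2)) := by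
      rw [← Real.exp_nat_mul, ← Real.exp_add]; congr 1; ring
    rw [e, mul_right_comm, ← mul_pow]
    have h7 : √2 ≤ 2 := Real.sqrt_le_iff.mpr ⟨by norm_num, by norm_num⟩
    have h8 : (Real.exp (-(π / 2)) * √2) ^ Fintype.card ι ≤ 1 :=
      pow_le_one₀ (by positivity) (by nlinarith [Real.sqrt_nonneg 2])
    have h9 : 0 ≤ (Real.exp (-(π / 2)) * √2) ^ Fintype.card ι := by positivity
    nlinarith [Real.exp_pos (-(π / 2))]
  have h7 : th G x ≤ 1 / 4 * th G 0 := by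
    refine h1.trans ?_
    rw [← mul_assoc]
    exact mul_le_mul_of_nonneg_right h6 (th_nonneg _ _)
  linarith

/-- weight of a shifted set -/
theorem shift_weight {G : Matrix ι ι ℝ} (hG : G.PosDef) (x : ι → ℝ) (S : Set (ι → ℤ))
    (v : ι → ℤ) :
    (∑' z, S.indicator (fun y => gs G (toR y - x)) z) ^ 2 ≤
      (∑' z, S.indicator (fun y => gs G (toR (y + v) - x)) z) *
        (Real.exp (2 * π * qq G (toR v)) * th G 0) := by
  classical
  set c := Real.exp (2 * π * qq G (toR v)) with hc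
  let a : (ι → ℤ) → ℝ := S.indicator (fun y => gs G (toR y - x))
  let b : (ι → ℤ) → ℝ := S.indicator (fun y => gs G (toR (y + v) - x))
  let d : (ι → ℤ) → ℝ := fun y => c * gs G (toR y - (x + toR v))
  have hb1 : Summable fun y : ι → ℤ => gs G (toR (y + v) - x) :=
    (summable_gs hG (x - toR v)).congr fun y => by rw [toR_add]; congr 1; abel
  have ha : Summable a := (summable_gs hG x).indicator S
  have hb : Summable b := hb1.indicator S
  have hd : HasSum d (c * th G (x + toR v)) := (hasSum_th hG _).mul_left c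
  have hb0 : ∀ y, 0 ≤ b y := fun y => Set.indicator_nonneg (fun _ _ => (gs_pos _ _).le) y
  have hd0 : ∀ y, 0 ≤ d y := fun y => mul_nonneg (Real.exp_pos _).le (gs_pos _ _).le
  have hab : ∀ y, a y ^ 2 ≤ b y * d y := by
    intro y
    by_cases hy : y ∈ S
    · simp only [a, b, d, Set.indicator_of_mem hy]
      have h := gs_sub_sq hG.1 (toR (y + v) - x) (toR v)
      have e1 : toR (y + v) - x - toR v = toR y - x := by rw [toR_add]; abel
      have e2 : toR (y + v) - x - (2 : ℝ) • toR v = toR y - (x + toR v) := by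
        rw [toR_add, two_smul]; abel
      rw [e1, e2] at h
      exact h.le
    · simp [a, b, Set.indicator_of_notMem hy]
  have hB : 0 ≤ ∑' z, b z := tsum_nonneg hb0
  have hD : c * th G (x + toR v) ≤ c * th G 0 :=
    mul_le_mul_of_nonneg_left (th_le_th_zero hG _) (Real.exp_pos _).le
  refine le_trans ?_ (mul_le_mul_of_nonneg_left hD hB)
  have hlim := (ha.hasSum : Filter.Tendsto _ _ _).pow 2
  refine le_of_tendsto' hlim fun F => ?_
  refine (Finset.sum_sq_le_sum_mul_sum_of_sq_le_mul F (fun i _ => hb0 i) (fun i _ => hd0 i)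
    (fun i _ => hab i)).trans ?_
  exact mul_le_mul (hb.sum_le_tsum F fun i _ => hb0 i) (sum_le_hasSum F (fun i _ => hd0 i) hd)
    (Finset.sum_nonneg fun i _ => hd0 i) hB

variable {E : Type*} [NormedAddCommGroup E] [NormedSpace ℝ E] [CompleteSpace E]

/-- Bilinear estimate on a fine Gaussian lattice. -/
theorem gauss_vin {G : Matrix ι ι ℝ} (hG : G.PosDef) (D : ℕ) (hD : Fintype.card ι ≤ D)
    (hD1 : 1 ≤ D) (M : ℕ) (β K W : ℝ) (hβ : 0 < β) (hM : 5 ≤ M * β ^ 2) (hK : 0 ≤ K)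
    (hW : 64 * (D : ℝ) ^ 2 * (M : ℝ) ^ 2 ≤ W) (hf : th (W ^ 2 • G)⁻¹ 0 ≤ 3 / 2)
    (Γ : AddSubgroup E) (hΓ : ∀ γ ∈ Γ, ‖γ‖ ≤ (M : ℝ) ^ 3 * (6 * K) → γ = 0)
    (L : (ι → ℤ) →+ E) (x : ι → ℝ) (S : Set (ι → ℤ)) (c : E) (hS : ∀ s ∈ S, Cl Γ K (L s - c))
    (hw : β * vol G ≤ ∑' z, S.indicator (fun y => gs G (toR y - x)) z) :
    ∃ q : ℕ, 1 ≤ q ∧ q ≤ M ∧ ∃ R : (ι → ℝ) →ₗ[ℝ] E, (∀ z, q • L z - R (toR z) ∈ Γ) ∧
      ∀ y, ‖R y‖ ≤ 32 * D * (M : ℝ) ^ 3 * K * √(qq G y) := by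
  obtain ⟨T, hT, hn⟩ := exists_T hG
  have hM1 : 1 ≤ M := by
    rcases Nat.eq_zero_or_pos M with h | h
    · rw [h] at hM; norm_num at hM
    · exact h
  have hM' : (1 : ℝ) ≤ M := by exact_mod_cast hM1
  have hD' : (1 : ℝ) ≤ D := by exact_mod_cast hD1
  have hc : (Fintype.card ι : ℝ) ≤ D := by exact_mod_cast hD
  have hDM : (1 : ℝ) ≤ (D : ℝ) ^ 2 * (M : ℝ) ^ 2 := by
    rw [← mul_pow]; exact one_le_pow₀ (by nlinarith)
  have hW1 : 1 ≤ W := by nlinarith
  have hW2 : 1 ≤ W ^ 2 := one_le_pow₀ hW1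
  have hWG : (W ^ 2 • G).PosDef := hG.smul (by positivity)
  have hf1 : th G⁻¹ 0 ≤ 3 / 2 := (th_inv_mono hG hWG (fun y => by
    rw [qq_smul_mat]; nlinarith [qq_nonneg hG.posSemidef y]) 0).trans hf
  have hv := vol_pos hG
  have h0 : th G 0 ≤ 3 / 2 * vol G := by rw [th_zero_eq hG]; nlinarith
  have g1 : 4 * (2 * D / W) ≤ 1 / (8 * D * (M : ℝ) ^ 2) := by
    rw [← mul_div_assoc, div_le_div_iff₀ (by positivity) (by positivity)]
    nlinarith
  have g2 : ∀ y : ι → ℝ, ∃ x : ι → ℤ, ‖T (y - zc x)‖ ≤ 2 * D / W := by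
    intro y
    obtain ⟨z, hz⟩ := cover_of_fine hWG hf y
    refine ⟨z, ?_⟩
    rw [hn, zc_eq, ← qq_neg, neg_sub, Real.sqrt_le_iff]
    refine ⟨by positivity, ?_⟩
    rw [qq_smul_mat] at hz
    rw [div_pow, le_div_iff₀ (by positivity)]
    nlinarith
  have g3 : ∑' y : ι → ℤ, gs G (toR y - x) < (M + 1) * (β ^ 2 * vol G / 3) := by
    have h1 : th G x ≤ 3 / 2 * vol G := (th_le_th_zero hG x).trans h0
    refine lt_of_le_of_lt h1 ?_
    nlinarith [mul_pos (pow_pos hβ 2) hv]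
  have g4 : ∀ v, ‖T (zc v)‖ ≤ (M : ℝ) ^ 2 * (2 * D * (1 / (8 * D * (M : ℝ) ^ 2))) →
      β ^ 2 * vol G / 3 ≤ ∑' z, S.indicator (fun y => gs G (toR (y + v) - x)) z := by
    intro v hv'
    have e : (M : ℝ) ^ 2 * (2 * D * (1 / (8 * D * (M : ℝ) ^ 2))) = 1 / 4 := by field_simp; ring
    rw [e, hn, zc_eq, Real.sqrt_le_iff] at hv'
    have h1 := shift_weight hG x S v
    have h2 : Real.exp (2 * π * qq G (toR v)) ≤ 2 := by
      have h3 : 2 * π * qq G (toR v) ≤ 1 / 2 := by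
        nlinarith [Real.pi_lt_four, Real.pi_pos, qq_nonneg hG.posSemidef (toR v), hv'.2]
      refine (Real.exp_le_exp.mpr h3).trans ?_
      have h4 := Real.exp_one_lt_three
      have e2 : Real.exp 1 = Real.exp (1 / 2) ^ 2 := by
        rw [← Real.exp_nat_mul]; congr 1; push_cast; ring
      nlinarith [Real.exp_pos (1 / 2)]
    set B := ∑' z, S.indicator (fun y => gs G (toR (y + v) - x)) z
    have hB : 0 ≤ B := tsum_nonneg fun y => Set.indicator_nonneg (fun _ _ => (gs_pos _ _).le) y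
    have h5 : (β * vol G) ^ 2 ≤ B * (3 * vol G) := by
      refine (pow_le_pow_left₀ (by positivity) hw 2).trans (h1.trans ?_)
      refine mul_le_mul_of_nonneg_left ?_ hB
      nlinarith [th_nonneg G 0, Real.exp_pos (2 * π * qq G (toR v))]
    rw [div_le_iff₀ (by norm_num)]
    nlinarith
  obtain ⟨q, q1, qM, R, hR1, hR2⟩ := vin_split T hT D hD hD1 (1 / (8 * D * (M : ℝ) ^ 2))
    (2 * D / W) K (by positivity) g1 hK g2 M hM1 Γ hΓ L (fun y => gs G (toR y - x))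
    (fun _ => (gs_pos _ _).le) (summable_gs hG x) S c hS (β ^ 2 * vol G / 3) g3 g4
  refine ⟨q, q1, qM, R, hR1, fun y => (hR2 y).trans (le_of_eq ?_)⟩
  rw [hn]; congr 1; field_simp; ring

end Vale.Agent.P057HU
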