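import Mathlib

/-! A finite family contains a basis of its span in which all members have coordinates
at most one. -/

set_option linter.all false

open Finset Module
open scoped BigOperators

namespace Vale.Agent.P057HU

theorem auerbach_top {ι V : Type*} [AddCommGroup V] [Module ℝ V] [Finite ι] (v : ι → V)
    (hv : Submodule.span ℝ (Set.range v) = ⊤) :
    ∃ (d : ℕ) (a : Fin d → ι) (B : Basis (Fin d) ℝ V),
      (∀ j, B j = v (a j)) ∧ ∀ i j, |B.repr (v i) j| ≤ 1 := by
  classical
  obtain ⟨κ, a0, hinj, hsp, hli⟩ := exists_linearIndependent' ℝ v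
  haveI : Finite κ := Finite.of_injective a0 hinj
  haveI : Fintype κ := Fintype.ofFinite κ
  rw [hv] at hsp
  let b1 : Basis κ ℝ V := Basis.mk hli hsp.ge
  let e : κ ≃ Fin (Fintype.card κ) := Fintype.equivFin κ
  let b0 : Basis (Fin (Fintype.card κ)) ℝ V := b1.reindex e
  haveI : Nonempty (Fin (Fintype.card κ) → ι) := ⟨fun j => a0 (e.symm j)⟩
  obtain ⟨p, hp⟩ := Finite.exists_max (fun p : Fin (Fintype.card κ) → ι => |b0.det (v ∘ p)|)
  have h1 : 1 ≤ |b0.det (v ∘ p)| := by
    have h := hp (fun j => a0 (e.symm j))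
    have e1 : (v ∘ fun j => a0 (e.symm j)) = b0 := by
      funext j
      simp [b0, b1]
    rw [e1, b0.det_self] at h
    simpa using h
  have hne : b0.det (v ∘ p) ≠ 0 := by
    intro h; rw [h] at h1; norm_num at h1
  obtain ⟨hl, hs⟩ := (b0.is_basis_iff_det (v := v ∘ p)).mpr (IsUnit.mk0 _ hne)
  refine ⟨_, p, Basis.mk hl hs.ge, fun j => by simp, fun i j => ?_⟩
  have h2 := congrArg (fun L => L (v i)) (b0.det_smul_mk_coord_eq_det_update hl hs.ge j)
  simp only [LinearMap.smul_apply, smul_eq_mul, MultilinearMap.toLinearMap_apply,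
    Basis.coord_apply] at h2
  have h3 := hp (Function.update p j i)
  have e2 : v ∘ Function.update p j i = Function.update (v ∘ p) j (v i) :=
    Function.comp_update v p j i
  rw [e2] at h3
  have h4 : b0.det (Function.update (v ∘ p) j (v i)) =
      b0.det (v ∘ p) * (Basis.mk hl hs.ge).repr (v i) j := h2.symm
  rw [h4, abs_mul] at h3
  have h5 : 0 < |b0.det (v ∘ p)| := by linarith
  nlinarith

/-- coordinates on the span, extended to the whole space -/
theorem auerbach {ι W : Type*} [AddCommGroup W] [Module ℝ W] [Finite ι] (v : ι → W) :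
    ∃ (d : ℕ) (a : Fin d → ι) (c : W →ₗ[ℝ] (Fin d → ℝ)),
      d = finrank ℝ (Submodule.span ℝ (Set.range v)) ∧
      (∀ j, c (v (a j)) = Pi.single j 1) ∧
      (∀ x ∈ Submodule.span ℝ (Set.range v), x = ∑ j, c x j • v (a j)) ∧
      ∀ i j, |c (v i) j| ≤ 1 := by
  classical
  let V := Submodule.span ℝ (Set.range v)
  let v' : ι → V := fun i => ⟨v i, Submodule.subset_span ⟨i, rfl⟩⟩
  have hv : Submodule.span ℝ (Set.range v') = ⊤ := by
    apply Submodule.map_injective_of_injective V.injective_subtype
    rw [Submodule.map_span, Submodule.map_top, Submodule.range_subtype, ← Set.range_comp]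
    rfl
  obtain ⟨d, a, B, hB, hc⟩ := auerbach_top v' hv
  obtain ⟨c, hcc⟩ := LinearMap.exists_extend (p := V) (B.equivFun : V →ₗ[ℝ] (Fin d → ℝ))
  have hcv : ∀ x : V, c x = B.repr x := by
    intro x
    have := congrArg (fun L => L x) hcc
    simpa using this
  refine ⟨d, a, c, ?_, fun j => ?_, fun x hx => ?_, fun i j => ?_⟩
  · simpa using (finrank_eq_card_basis B).symm
  · have := hcv (v' (a j))
    rw [← hB j, B.repr_self] at this
    have e : (B j : W) = v (a j) := by rw [hB j]
    rw [← e, this]
    funext k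
    simp [Finsupp.single_apply, Pi.single_apply, eq_comm]
  · have h := congrArg (fun y : V => (y : W)) (B.sum_repr ⟨x, hx⟩)
    have h2 := hcv ⟨x, hx⟩
    simp only [Submodule.coe_sum, Submodule.coe_smul, hB] at h
    simp only at h2
    rw [h2]
    exact h.symm
  · have := hcv (v' i)
    simp only [v'] at this
    rw [this]
    exact hc i j

end Vale.Agent.P057HU
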