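import Vale.Agent.P057HU.Glob
import Vale.Agent.P057HU.Auer

/-! Stability of the additive equation modulo a discrete subgroup: the local case. -/

set_option linter.all false

open Finset Module
open scoped BigOperators

namespace Vale.Agent.P057HU

variable {A E : Type*} [AddCommGroup A] [NormedAddCommGroup E] [NormedSpace ℝ E]

/-- `x` is within `r` of the subgroup -/
def Cl (Γ : AddSubgroup E) (r : ℝ) (x : E) : Prop := ∃ γ ∈ Γ, ‖x - γ‖ ≤ r

theorem Cl.add {Γ : AddSubgroup E} {r s : ℝ} {x y : E} (h1 : Cl Γ r x) (h2 : Cl Γ s y) :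
    Cl Γ (r + s) (x + y) := by
  obtain ⟨a, ha, h1⟩ := h1
  obtain ⟨b, hb, h2⟩ := h2
  refine ⟨a + b, Γ.add_mem ha hb, ?_⟩
  have : x + y - (a + b) = (x - a) + (y - b) := by abel
  rw [this]
  exact (norm_add_le _ _).trans (add_le_add h1 h2)

theorem Cl.neg {Γ : AddSubgroup E} {r : ℝ} {x : E} (h1 : Cl Γ r x) : Cl Γ r (-x) := by
  obtain ⟨a, ha, h1⟩ := h1
  refine ⟨-a, Γ.neg_mem ha, ?_⟩
  have : -x - -a = -(x - a) := by abel
  rwa [this, norm_neg]

theorem Cl.mono {Γ : AddSubgroup E} {r s : ℝ} {x : E} (h1 : Cl Γ r x) (h : r ≤ s) :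
    Cl Γ s x := by
  obtain ⟨a, ha, h1⟩ := h1
  exact ⟨a, ha, h1.trans h⟩

theorem Cl.congr {Γ : AddSubgroup E} {r : ℝ} {x y : E} (h1 : Cl Γ r x) (h : y = x) :
    Cl Γ r y := h ▸ h1

theorem Cl.of_mem {Γ : AddSubgroup E} {x : E} (h : x ∈ Γ) : Cl Γ 0 x :=
  ⟨x, h, by simp⟩

theorem Cl.of_norm {Γ : AddSubgroup E} {r : ℝ} {x : E} (h : ‖x‖ ≤ r) : Cl Γ r x :=
  ⟨0, Γ.zero_mem, by simpa using h⟩

section box

variable {d : ℕ} (p : Fin d → A) (c : A →+ (Fin d → ℝ)) (Γ : AddSubgroup E) (ε : ℝ)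
  (Φ : A → E)

/-- adding the vectors `p i` with coefficients in `{-1, 0, 1}` -/
theorem box_step (hε : 0 ≤ ε) (hp : ∀ j, c (p j) = Pi.single j 1)
    (h : ∀ x y, (∀ i, |c x i| ≤ 2) → (∀ i, |c y i| ≤ 2) → (∀ i, |c (x + y) i| ≤ 2) →
      Cl Γ ε (Φ (x + y) - Φ x - Φ y))
    (w : A) (hw : ∀ i, |c w i| ≤ 1) (k : Fin d → ℤ) (hk : ∀ i, |k i| ≤ 1) (T : Finset (Fin d)) :
    Cl Γ (T.card * ε) (Φ (w + ∑ i ∈ T, k i • p i) - Φ w - ∑ i ∈ T, k i • Φ (p i)) := by
  classical
  have hb : ∀ (T : Finset (Fin d)) j, |c (w + ∑ i ∈ T, k i • p i) j| ≤ 2 := by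
    intro T j
    have e : c (w + ∑ i ∈ T, k i • p i) j = c w j + if j ∈ T then (k j : ℝ) else 0 := by
      simp only [map_add, map_sum, map_zsmul, hp, Pi.add_apply, Finset.sum_apply, Pi.smul_apply,
        Pi.single_apply]
      simp only [zsmul_eq_mul, mul_ite, mul_one, mul_zero]
      rw [Finset.sum_ite_eq]
    rw [e]
    have h1 := hw j
    have h2 : |(k j : ℝ)| ≤ 1 := by exact_mod_cast hk j
    split_ifs
    · exact (abs_add_le _ _).trans (by linarith)
    · rw [add_zero]; linarith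
  have hp2 : ∀ j i, |c (p j) i| ≤ 2 := by
    intro j i
    rw [hp, Pi.single_apply]
    split_ifs <;> norm_num
  induction T using Finset.induction_on with
  | empty => exact Cl.of_norm (by simp)
  | insert j T hj ih =>
    have h1 := hb (insert j T)
    have h0 := hb T
    rw [Finset.sum_insert hj] at h1
    rw [Finset.sum_insert hj, Finset.sum_insert hj, Finset.card_insert_of_notMem hj]
    set u := w + ∑ i ∈ T, k i • p i with hu
    have eu : w + (k j • p j + ∑ i ∈ T, k i • p i) = u + k j • p j := by rw [hu]; abel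
    rw [eu] at h1 ⊢
    have hs : Cl Γ ε (Φ (u + k j • p j) - Φ u - k j • Φ (p j)) := by
      have hk1 := abs_le.mp (hk j)
      have : k j = -1 ∨ k j = 0 ∨ k j = 1 := by omega
      rcases this with e | e | e
      · rw [e] at h1 ⊢
        have h3 := h (u + (-1 : ℤ) • p j) (p j) h1 (hp2 j) (by simpa using h0)
        refine h3.neg.congr ?_
        simp
        abel
      · rw [e]; exact Cl.of_norm (by simpa using hε)
      · rw [e] at h1 ⊢
        simpa using h u (p j) h0 (hp2 j) (by simpa using h1)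
    refine ((hs.add ih).congr (by abel)).mono (le_of_eq ?_)
    push_cast; ring

/-- stability on a box of coordinates -/
theorem hu_box [CompleteSpace E] (hε : 0 ≤ ε) (hp : ∀ j, c (p j) = Pi.single j 1)
    (hΓ : ∀ γ ∈ Γ, ‖γ‖ ≤ 12 * ((d + 1) * ε) → γ = 0)
    (h : ∀ x y, (∀ i, |c x i| ≤ 2) → (∀ i, |c y i| ≤ 2) → (∀ i, |c (x + y) i| ≤ 2) →
      Cl Γ ε (Φ (x + y) - Φ x - Φ y)) :
    ∃ g : A → E, (∀ x y, g (x + y) - g x - g y ∈ Γ) ∧
      ∀ x, (∀ i, |c x i| ≤ 1) → Cl Γ ((2 * d + 1) * ε) (Φ x - g x) := by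
  classical
  let k : A → Fin d → ℤ := fun a i => round (c a i)
  let w : A → A := fun a => a - ∑ i, k a i • p i
  have hcw : ∀ a j, c (w a) j = c a j - k a j := by
    intro a j
    simp only [w, map_sub, map_sum, map_zsmul, hp, Pi.sub_apply, Finset.sum_apply, Pi.smul_apply,
      Pi.single_apply]
    simp only [zsmul_eq_mul, mul_ite, mul_one, mul_zero]
    rw [Finset.sum_ite_eq]; simp
  have hw : ∀ a j, |c (w a) j| ≤ 1 / 2 := fun a j => by
    rw [hcw]; exact abs_sub_round _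
  have hw1 : ∀ a j, |c (w a) j| ≤ 1 := fun a j => (hw a j).trans (by norm_num)
  have hw2 : ∀ a j, |c (w a) j| ≤ 2 := fun a j => (hw a j).trans (by norm_num)
  let f : A → E := fun a => ∑ i, k a i • Φ (p i) + Φ (w a)
  have hf : ∀ x y, Cl Γ ((d + 1) * ε) (f (x + y) - f x - f y) := by
    intro x y
    let m : Fin d → ℤ := fun i => k (x + y) i - k x i - k y i
    have hm : ∀ i, |m i| ≤ 1 := by
      intro i
      have e : (m i : ℝ) = c (w x) i + c (w y) i - c (w (x + y)) i := by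
        simp only [hcw, m, map_add, Pi.add_apply]; push_cast; ring
      have h1 := abs_le.mp (hw x i)
      have h2 := abs_le.mp (hw y i)
      have h3 := abs_le.mp (hw (x + y) i)
      have h4 : (m i : ℝ) < 2 := by linarith
      have h5 : (-2 : ℝ) < m i := by linarith
      have h6 : m i < 2 := by exact_mod_cast h4
      have h7 : -2 < m i := by exact_mod_cast h5
      rw [abs_le]; omega
    have e : w (x + y) + ∑ i, m i • p i = w x + w y := by
      simp only [w, m, sub_smul, Finset.sum_sub_distrib]; abel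
    have h1 := box_step p c Γ ε Φ hε hp h (w (x + y)) (hw1 _) m hm univ
    rw [e] at h1
    have h2 := h (w x) (w y) (hw2 _) (hw2 _) (fun i => by
      rw [map_add, Pi.add_apply]
      exact (abs_add_le _ _).trans (by linarith [hw1 x i, hw1 y i]))
    refine ((h1.neg.add h2).congr ?_).mono (le_of_eq ?_)
    · simp only [f, m, sub_smul, Finset.sum_sub_distrib]; abel
    · simp; ring
  obtain ⟨g, hg, hgf⟩ := hu_global Γ ((d + 1) * ε) hΓ f hf
  refine ⟨g, hg, fun x hx => ?_⟩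
  have hk : ∀ i, |k x i| ≤ 1 := by
    intro i
    have h1 := abs_le.mp (hw x i)
    have h2 := abs_le.mp (hx i)
    rw [hcw] at h1
    have h4 : (k x i : ℝ) < 2 := by linarith
    have h5 : (-2 : ℝ) < k x i := by linarith
    have h6 : k x i < 2 := by exact_mod_cast h4
    have h7 : -2 < k x i := by exact_mod_cast h5
    rw [abs_le]; omega
  have h1 := box_step p c Γ ε Φ hε hp h (w x) (hw1 _) (k x) hk univ
  have e : w x + ∑ i, k x i • p i = x := by simp [w]
  rw [e] at h1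
  have h2 : Cl Γ ((d + 1) * ε) (g x - f x) := Cl.of_norm (hgf x)
  refine ((h1.add h2.neg).congr ?_).mono (le_of_eq ?_)
  · simp only [f]; abel
  · simp; ring

end box

/-- a map additive modulo `Γ` on a subgroup of a free module agrees modulo `Γ` with an additive
map on the whole module -/
theorem lift_hom {L : Type*} [AddCommGroup L] [Module.Free ℤ L] (H : AddSubgroup L)
    (Γ : AddSubgroup E) (g : H → E) (hg : ∀ x y, g (x + y) - g x - g y ∈ Γ) :
    ∃ F : L →+ E, ∀ x : H, g x - F x ∈ Γ := by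
  classical
  let q : E →+ E ⧸ Γ := QuotientAddGroup.mk' Γ
  let g1 : H →+ E ⧸ Γ := AddMonoidHom.mk' (fun x => q (g x)) (by
    intro x y
    rw [← map_add, ← sub_eq_zero, ← map_sub, ← sub_sub]
    exact (QuotientAddGroup.eq_zero_iff _).mpr (hg x y))
  letI : DivisibleBy (E ⧸ Γ) ℤ := divisibleByOfSMulRightSurj (E ⧸ Γ) ℤ (by
    intro n hn y
    obtain ⟨x, rfl⟩ := QuotientAddGroup.mk'_surjective Γ y
    refine ⟨q ((n : ℝ)⁻¹ • x), ?_⟩
    have hn' : (n : ℝ) ≠ 0 := by exact_mod_cast hn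
    show n • q ((n : ℝ)⁻¹ • x) = q x
    rw [← map_zsmul, ← Int.cast_smul_eq_zsmul ℝ, smul_smul, mul_inv_cancel₀ hn', one_smul])
  obtain ⟨g2, hg2⟩ := (Module.Baer.of_divisible (E ⧸ Γ)).extension_property_addMonoidHom
    H.subtype H.subtype_injective g1
  obtain ⟨F, hF⟩ := Module.projective_lifting_property (R := ℤ) q.toIntLinearMap
    g2.toIntLinearMap (QuotientAddGroup.mk'_surjective Γ)
  refine ⟨F.toAddMonoidHom, fun x => ?_⟩
  rw [← QuotientAddGroup.eq_zero_iff]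
  have h1 := congrArg (fun t => t (x : L)) hF
  have h2 := congrArg (fun t => t x) hg2
  simp only [LinearMap.comp_apply, AddMonoidHom.coe_toIntLinearMap, AddMonoidHom.comp_apply,
    AddSubgroup.coe_subtype] at h1 h2
  show q (g x - F x) = 0
  rw [map_sub, h1, h2]
  exact sub_self _

/-- Local stability. `L` is a free abelian group mapped to a real vector space `W` with a
seminorm `N`; `S` is a finite set of points of size at most `r` whose span has dimension at
most `D`. A map that is almost additive modulo `Γ` on the ball of radius `2 D r` is close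
modulo `Γ` to an additive map on `S`. -/
theorem hu_local [CompleteSpace E] {L W : Type*} [AddCommGroup L] [Module.Free ℤ L]
    [AddCommGroup W] [Module ℝ W] (ι : L →+ W) (N : Seminorm ℝ W) (S : Set L) (hS : S.Finite)
    (D : ℕ) (hD : finrank ℝ (Submodule.span ℝ (ι '' S)) ≤ D) (r ε : ℝ) (hε : 0 ≤ ε)
    (hr0 : 0 ≤ r) (hr : ∀ x ∈ S, N (ι x) ≤ r) (Γ : AddSubgroup E)
    (hΓ : ∀ γ ∈ Γ, ‖γ‖ ≤ 12 * ((D + 1) * ε) → γ = 0) (Φ : L → E)
    (h : ∀ x y, N (ι x) ≤ 2 * D * r → N (ι y) ≤ 2 * D * r → N (ι (x + y)) ≤ 2 * D * r →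
      Cl Γ ε (Φ (x + y) - Φ x - Φ y)) :
    ∃ F : L →+ E, ∀ x ∈ S, Cl Γ ((2 * D + 1) * ε) (Φ x - F x) := by
  classical
  haveI : Finite S := hS
  have er : Set.range (fun s : S => ι s) = ι '' S := by
    ext y; simp
  obtain ⟨d, a, c, hd, hca, hcs, hc1⟩ := auerbach (fun s : S => ι s)
  rw [er] at hd hcs
  have hdD : (d : ℝ) ≤ D := by exact_mod_cast hd ▸ hD
  let H : AddSubgroup L := (Submodule.span ℝ (ι '' S)).toAddSubgroup.comap ι
  have hH : ∀ s : S, (s : L) ∈ H := fun s => Submodule.subset_span ⟨s, s.2, rfl⟩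
  let c' : H →+ (Fin d → ℝ) := (c.toAddMonoidHom.comp ι).comp H.subtype
  have hN : ∀ x : H, (∀ i, |c' x i| ≤ 2) → N (ι x) ≤ 2 * D * r := by
    intro x hx
    have e := hcs (ι x) x.2
    rw [e]
    calc N (∑ j, c (ι x) j • ι (a j)) ≤ ∑ j, N (c (ι x) j • ι (a j)) := by
          have := N.toAddGroupSeminorm
          exact Finset.le_sum_of_subadditive N (map_zero N).le (map_add_le_add N) _ _
      _ ≤ ∑ _j : Fin d, 2 * r := by
          refine Finset.sum_le_sum fun j _ => ?_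
          rw [map_smul_eq_mul, Real.norm_eq_abs]
          exact mul_le_mul (hx j) (hr _ (a j).2) (apply_nonneg _ _) (by norm_num)
      _ = 2 * d * r := by simp; ring
      _ ≤ 2 * D * r := by gcongr
  obtain ⟨g, hg, hgΦ⟩ := hu_box (A := H) (fun j => ⟨a j, hH _⟩) c' Γ ε (fun x => Φ x) hε
    (fun j => hca j) (fun γ hγ hn => hΓ γ hγ (hn.trans (by gcongr)))
    (fun x y hx hy hxy => h x y (hN x hx) (hN y hy) (hN (x + y) hxy))
  obtain ⟨F, hF⟩ := lift_hom H Γ g hg
  refine ⟨F, fun x hx => ?_⟩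
  have h1 := hgΦ ⟨x, hH ⟨x, hx⟩⟩ (fun i => hc1 ⟨x, hx⟩ i)
  have h2 := Cl.of_mem (hF ⟨x, hH ⟨x, hx⟩⟩)
  refine ((h1.add h2).congr (by simp)).mono ?_
  rw [add_zero]; gcongr

/-- integer vectors as real vectors -/
def zc {n : Type*} : (n → ℤ) →+ (n → ℝ) where
  toFun x := fun i => (x i : ℝ)
  map_zero' := by funext i; simp
  map_add' x y := by funext i; simp

theorem finite_ball {n W : Type*} [Fintype n] [NormedAddCommGroup W] [NormedSpace ℝ W]
    (T : (n → ℝ) →ₗ[ℝ] W) (hT : Function.Injective T) (r : ℝ) :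
    {x : n → ℤ | ‖T (zc x)‖ ≤ r}.Finite := by
  obtain ⟨K, -, hK⟩ := T.exists_antilipschitzWith (LinearMap.ker_eq_bot.mpr hT)
  obtain ⟨M, hM⟩ := exists_nat_ge (K * r)
  refine (Set.Finite.pi' (fun _ : n => Set.finite_Icc (-(M : ℤ)) M)).subset fun x hx i => ?_
  have h1 := hK.le_mul_dist (zc x) 0
  rw [map_zero, dist_zero_right, dist_zero_right] at h1
  have h2 : |(x i : ℝ)| ≤ M :=
    (norm_le_pi_norm (zc x) i).trans (h1.trans ((mul_le_mul_of_nonneg_left hx K.2).trans hM))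
  have h3 : |x i| ≤ (M : ℤ) := by exact_mod_cast h2
  exact abs_le.mp h3

/-- Local stability on the integer lattice with the norm `‖T x‖`. -/
theorem hu_lattice [CompleteSpace E] {n W : Type*} [Fintype n] [NormedAddCommGroup W]
    [NormedSpace ℝ W] (T : (n → ℝ) →ₗ[ℝ] W) (hT : Function.Injective T) (D : ℕ)
    (hD : Fintype.card n ≤ D) (r ε : ℝ) (hε : 0 ≤ ε) (hr0 : 0 ≤ r) (Γ : AddSubgroup E)
    (hΓ : ∀ γ ∈ Γ, ‖γ‖ ≤ 12 * ((D + 1) * ε) → γ = 0) (Φ : (n → ℤ) → E)
    (h : ∀ x y, ‖T (zc x)‖ ≤ 2 * D * r → ‖T (zc y)‖ ≤ 2 * D * r →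
      ‖T (zc (x + y))‖ ≤ 2 * D * r → Cl Γ ε (Φ (x + y) - Φ x - Φ y)) :
    ∃ F : (n → ℝ) →ₗ[ℝ] E, ∀ x, ‖T (zc x)‖ ≤ r → Cl Γ ((2 * D + 1) * ε) (Φ x - F (zc x)) := by
  classical
  have hd : finrank ℝ (Submodule.span ℝ ((T.toAddMonoidHom.comp zc) ''
      {x : n → ℤ | ‖T (zc x)‖ ≤ r})) ≤ D := by
    haveI : FiniteDimensional ℝ (LinearMap.range T) := inferInstance
    refine le_trans (Submodule.finrank_mono (t := LinearMap.range T) ?_) ?_
    · rw [Submodule.span_le]
      rintro _ ⟨x, -, rfl⟩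
      exact ⟨zc x, rfl⟩
    · refine (LinearMap.finrank_range_le T).trans ?_
      simpa using hD
  obtain ⟨F, hF⟩ := hu_local (E := E) (T.toAddMonoidHom.comp zc) (normSeminorm ℝ W)
    {x : n → ℤ | ‖T (zc x)‖ ≤ r} (finite_ball T hT r) D hd r ε hε hr0 (fun x hx => hx) Γ hΓ Φ h
  refine ⟨Fintype.linearCombination ℝ (fun i => F (Pi.single i 1)), fun x hx => ?_⟩
  refine (hF x hx).congr ?_
  congr 1
  rw [Fintype.linearCombination_apply]
  conv_rhs => rw [← Finset.univ_sum_single x, map_sum]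
  refine Finset.sum_congr rfl fun i _ => ?_
  have : (Pi.single i (x i) : n → ℤ) = x i • Pi.single i 1 := by
    rw [← Pi.single_smul]; simp
  rw [this, map_zsmul]
  exact Int.cast_smul_eq_zsmul ℝ _ _

end Vale.Agent.P057HU
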