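import Mathlib

/-! Stability of the additive equation modulo a discrete subgroup: the global case. -/

set_option linter.all false

open Finset
open scoped BigOperators

namespace Vale.Agent.P057HU

variable {A E : Type*} [AddCommGroup A] [NormedAddCommGroup E] [NormedSpace ℝ E]

/-- a bounded function with `c (2x) = 2 c x` vanishes -/
theorem zero_of_double (c : A → A → E) (M : ℝ) (hM : ∀ x y, ‖c x y‖ ≤ M)
    (h2 : ∀ x y, c (x + x) (y + y) = (2 : ℝ) • c x y) (x y : A) : c x y = 0 := by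
  have key : ∀ n : ℕ, ∀ x y, (2 : ℝ) ^ n * ‖c x y‖ ≤ M := by
    intro n
    induction n with
    | zero => intro x y; simpa using hM x y
    | succ n ih =>
      intro x y
      have h := ih (x + x) (y + y)
      rw [h2, norm_smul] at h
      have : ‖(2 : ℝ)‖ = 2 := by simp
      rw [this] at h
      calc (2 : ℝ) ^ (n + 1) * ‖c x y‖ = 2 ^ n * (2 * ‖c x y‖) := by ring
        _ ≤ M := h
  by_contra hne
  have hpos : 0 < ‖c x y‖ := norm_pos_iff.mpr hne
  obtain ⟨n, hn⟩ := pow_unbounded_of_one_lt (M / ‖c x y‖) (by norm_num : (1 : ℝ) < 2)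
  have := key n x y
  rw [div_lt_iff₀ hpos] at hn
  linarith

/-- the correction term: a bounded solution of `2 β x = d x + β (2 x)` -/
theorem exists_beta [CompleteSpace E] (d : A → E) (ε : ℝ) (hd : ∀ x, ‖d x‖ ≤ ε) :
    ∃ β : A → E, (∀ x, ‖β x‖ ≤ ε) ∧ ∀ x, (2 : ℝ) • β x = d x + β (x + x) := by
  let u : A → ℕ → E := fun x t => ((1 / 2 : ℝ) ^ (t + 1)) • d ((2 ^ t : ℕ) • x)
  have hb : ∀ x t, ‖u x t‖ ≤ ε / 2 / 2 ^ t := by
    intro x t
    have h0 : (0 : ℝ) ≤ (1 / 2 : ℝ) ^ (t + 1) := by positivity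
    simp only [u, norm_smul, Real.norm_eq_abs, abs_of_nonneg h0]
    calc (1 / 2 : ℝ) ^ (t + 1) * ‖d ((2 ^ t : ℕ) • x)‖ ≤ (1 / 2 : ℝ) ^ (t + 1) * ε :=
          mul_le_mul_of_nonneg_left (hd _) h0
      _ = ε / 2 / 2 ^ t := by rw [one_div, inv_pow, pow_succ]; field_simp
  have hg : HasSum (fun t : ℕ => ε / 2 / 2 ^ t) ε := hasSum_geometric_two' ε
  have hs : ∀ x, Summable (u x) := fun x => Summable.of_norm_bounded hg.summable (hb x)
  refine ⟨fun x => ∑' t, u x t, fun x => tsum_of_norm_bounded hg (hb x), fun x => ?_⟩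
  show (2 : ℝ) • ∑' t, u x t = d x + ∑' t, u (x + x) t
  have hs1 : Summable (fun t => u x (t + 1)) := (summable_nat_add_iff 1).mpr (hs x)
  rw [(hs x).tsum_eq_zero_add, smul_add, ← hs1.tsum_const_smul (2 : ℝ)]
  congr 1
  · simp only [u]; simp [smul_smul]
  · refine tsum_congr fun t => ?_
    simp only [u]
    rw [smul_smul, ← two_nsmul, smul_smul, ← pow_succ]
    congr 1
    rw [pow_succ (1 / 2 : ℝ) (t + 1)]; ring

/-- global stability modulo a subgroup without short vectors -/
theorem hu_global [CompleteSpace E] (Γ : AddSubgroup E) (ε : ℝ)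
    (hΓ : ∀ γ ∈ Γ, ‖γ‖ ≤ 12 * ε → γ = 0) (f : A → E)
    (hf : ∀ x y, ∃ γ ∈ Γ, ‖f (x + y) - f x - f y - γ‖ ≤ ε) :
    ∃ g : A → E, (∀ x y, g (x + y) - g x - g y ∈ Γ) ∧ ∀ x, ‖g x - f x‖ ≤ ε := by
  choose γ hγ hc using hf
  obtain ⟨β, hβ, hβ2⟩ := exists_beta (fun x => f (x + x) - f x - f x - γ x x) ε
    (fun x => hc x x)
  refine ⟨fun x => f x + β x, ?_, fun x => by simpa using hβ x⟩
  let c : A → A → E := fun x y => f (x + y) - f x - f y - γ x y + β (x + y) - β x - β y
  have hM : ∀ x y, ‖c x y‖ ≤ 4 * ε := by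
    intro x y
    have h1 := hc x y
    have h2 := hβ (x + y)
    have h3 := hβ x
    have h4 := hβ y
    have h5 := norm_sub_le (f (x + y) - f x - f y - γ x y + β (x + y) - β x) (β y)
    have h6 := norm_sub_le (f (x + y) - f x - f y - γ x y + β (x + y)) (β x)
    have h7 := norm_add_le (f (x + y) - f x - f y - γ x y) (β (x + y))
    simp only [c]
    linarith
  have h2 : ∀ x y, c (x + x) (y + y) = (2 : ℝ) • c x y := by
    intro x y
    rw [← sub_eq_zero]
    apply hΓ
    · have e : c (x + x) (y + y) - (2 : ℝ) • c x y =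
          γ (x + y) (x + y) - γ x x - γ y y - γ (x + x) (y + y) + γ x y + γ x y := by
        have e1 := hβ2 x
        have e2 := hβ2 y
        have e3 := hβ2 (x + y)
        have e4 : x + x + (y + y) = x + y + (x + y) := by abel
        simp only [c, e4, two_smul] at e1 e2 e3 ⊢
        have f1 : β (x + x) = β x + β x - (f (x + x) - f x - f x - γ x x) := by rw [e1]; abel
        have f2 : β (y + y) = β y + β y - (f (y + y) - f y - f y - γ y y) := by rw [e2]; abel
        have f3 : β (x + y + (x + y)) = β (x + y) + β (x + y) -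
            (f (x + y + (x + y)) - f (x + y) - f (x + y) - γ (x + y) (x + y)) := by
          rw [e3]; abel
        rw [f1, f2, f3]; abel
      rw [e]
      exact Γ.add_mem (Γ.add_mem (Γ.sub_mem (Γ.sub_mem (Γ.sub_mem (hγ _ _) (hγ _ _)) (hγ _ _))
        (hγ _ _)) (hγ _ _)) (hγ _ _)
    · have h1 := norm_sub_le (c (x + x) (y + y)) ((2 : ℝ) • c x y)
      have h3 := hM (x + x) (y + y)
      have h4 := hM x y
      rw [norm_smul] at h1
      have : ‖(2 : ℝ)‖ = 2 := by simp
      rw [this] at h1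
      linarith
  intro x y
  have h0 := zero_of_double c (4 * ε) hM h2 x y
  have e : f (x + y) + β (x + y) - (f x + β x) - (f y + β y) = c x y + γ x y := by
    simp only [c]; abel
  rw [e, h0, zero_add]
  exact hγ x y

end Vale.Agent.P057HU
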