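import Vale.Agent.P057HU.Vin

/-! An additive map on a fine lattice that is small modulo `Γ` on short vectors is the sum of a
map into `Γ` and a real linear map of small norm. -/

set_option linter.all false

open Finset Module
open scoped BigOperators

namespace Vale.Agent.P057HU

variable {E : Type*} [NormedAddCommGroup E] [NormedSpace ℝ E]
variable {n W : Type*} [Fintype n] [NormedAddCommGroup W] [NormedSpace ℝ W]

/-- short vectors generate a fine lattice -/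
theorem gen_of_cover (T : (n → ℝ) →ₗ[ℝ] W) (r ρ : ℝ) (hr : 0 < r) (hρ : 4 * ρ ≤ r)
    (hcov : ∀ y : n → ℝ, ∃ x : n → ℤ, ‖T (y - zc x)‖ ≤ ρ) (H : AddSubgroup (n → ℤ))
    (hH : ∀ x, ‖T (zc x)‖ ≤ r → x ∈ H) (x : n → ℤ) : x ∈ H := by
  have hρ0 : 0 ≤ ρ := by
    obtain ⟨x, hx⟩ := hcov 0
    exact (norm_nonneg _).trans hx
  have key : ∀ u : n → ℝ, ‖T u‖ ≤ r / 2 → ∀ j : ℕ, ∀ z : n → ℤ,
      ‖T ((j : ℝ) • u - zc z)‖ ≤ ρ → z ∈ H := by
    intro u hu j
    induction j with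
    | zero =>
      intro z hz
      apply hH
      simp only [Nat.cast_zero, zero_smul, zero_sub, map_neg, norm_neg] at hz
      linarith
    | succ j ih =>
      intro z hz
      obtain ⟨z', hz'⟩ := hcov ((j : ℝ) • u)
      have h1 : z - z' ∈ H := by
        apply hH
        have e : T (zc (z - z')) = T u + T ((j : ℝ) • u - zc z') -
            T (((j + 1 : ℕ) : ℝ) • u - zc z) := by
          rw [← map_add, ← map_sub, map_sub]
          congr 1
          push_cast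
          rw [add_smul, one_smul]; abel
        rw [e]
        have := norm_sub_le (T u + T ((j : ℝ) • u - zc z')) (T (((j + 1 : ℕ) : ℝ) • u - zc z))
        have := norm_add_le (T u) (T ((j : ℝ) • u - zc z'))
        linarith
      simpa using H.add_mem h1 (ih z' hz')
  obtain ⟨m, hm⟩ := exists_nat_gt (‖T (zc x)‖ / (r / 2))
  have hm0 : (0 : ℝ) < m := lt_of_le_of_lt (by positivity) hm
  refine key ((m : ℝ)⁻¹ • zc x) ?_ m x ?_
  · rw [map_smul, norm_smul, norm_inv, Real.norm_natCast, inv_mul_le_iff₀ hm0]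
    rw [div_lt_iff₀ (by positivity)] at hm
    exact hm.le
  · rw [smul_smul, mul_inv_cancel₀ hm0.ne', one_smul, sub_self, map_zero, norm_zero]
    exact hρ0

/-- a linear map bounded on the short vectors of a fine lattice has small norm -/
theorem norm_le_of_cover (T : (n → ℝ) →ₗ[ℝ] W) (hT : Function.Injective T) (r ρ K : ℝ)
    (hr : 0 < r) (hρ : 4 * ρ ≤ r) (hcov : ∀ y : n → ℝ, ∃ x : n → ℤ, ‖T (y - zc x)‖ ≤ ρ)
    (R : (n → ℝ) →ₗ[ℝ] E) (hR : ∀ x, ‖T (zc x)‖ ≤ r → ‖R (zc x)‖ ≤ K) (y : n → ℝ) :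
    ‖R y‖ ≤ 2 * K / r * ‖T y‖ := by
  have hK : 0 ≤ K := by simpa using hR 0 (by simpa using hr.le)
  obtain ⟨C, hC0, hC⟩ : ∃ C : ℝ, 0 ≤ C ∧ ∀ y, ‖R y‖ ≤ C * ‖T y‖ := by
    obtain ⟨K1, -, hK1⟩ := T.exists_antilipschitzWith (LinearMap.ker_eq_bot.mpr hT)
    refine ⟨‖LinearMap.toContinuousLinearMap R‖ * K1, by positivity, fun y => ?_⟩
    have h1 := hK1.le_mul_dist y 0
    rw [map_zero, dist_zero_right, dist_zero_right] at h1
    have h2 := (LinearMap.toContinuousLinearMap R).le_opNorm y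
    rw [mul_assoc]
    exact h2.trans (mul_le_mul_of_nonneg_left h1 (norm_nonneg _))
  have step : ∀ c : ℝ, 0 ≤ c → (∀ y, ‖R y‖ ≤ c * ‖T y‖) →
      ∀ y, ‖R y‖ ≤ (4 * K / (3 * r) + c / 3) * ‖T y‖ := by
    intro c hc h y
    rcases eq_or_lt_of_le (norm_nonneg (T y)) with h0 | h0
    · have := h y
      rw [← h0] at this ⊢
      simpa using this
    · set a : ℝ := 3 * r / 4 / ‖T y‖ with ha
      have ha0 : 0 < a := by positivity
      obtain ⟨x, hx⟩ := hcov (a • y)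
      have h1 : ‖T (a • y)‖ = 3 * r / 4 := by
        rw [map_smul, norm_smul, Real.norm_of_nonneg ha0.le, ha]; field_simp
      have h2 : ‖T (zc x)‖ ≤ r := by
        have e : T (zc x) = T (a • y) - T (a • y - zc x) := by rw [← map_sub]; simp
        rw [e]
        have := norm_sub_le (T (a • y)) (T (a • y - zc x))
        linarith
      have h3 : ‖R (a • y)‖ ≤ K + c * (r / 4) := by
        have e : R (a • y) = R (zc x) + R (a • y - zc x) := by rw [← map_add]; simp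
        rw [e]
        refine (norm_add_le _ _).trans (add_le_add (hR x h2) ((h _).trans ?_))
        exact mul_le_mul_of_nonneg_left (by linarith) hc
      rw [map_smul, norm_smul, Real.norm_of_nonneg ha0.le, ha] at h3
      have h4 : ‖R y‖ = (3 * r / 4 / ‖T y‖ * ‖R y‖) * (4 / (3 * r) * ‖T y‖) := by field_simp
      rw [h4]
      calc _ ≤ (K + c * (r / 4)) * (4 / (3 * r) * ‖T y‖) := by gcongr
        _ = _ := by field_simp
  have iter : ∀ m : ℕ, ∀ y, ‖R y‖ ≤ (2 * K / r + C * (1 / 3) ^ m) * ‖T y‖ := by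
    intro m
    induction m with
    | zero =>
      intro y
      refine (hC y).trans (mul_le_mul_of_nonneg_right ?_ (norm_nonneg _))
      have : 0 ≤ 2 * K / r := by positivity
      simp; linarith
    | succ m ih =>
      intro y
      refine (step _ (by positivity) ih y).trans (le_of_eq ?_)
      congr 1
      field_simp; ring
  have hlim : Filter.Tendsto (fun m : ℕ => (2 * K / r + C * (1 / 3 : ℝ) ^ m) * ‖T y‖)
      Filter.atTop (nhds ((2 * K / r + C * 0) * ‖T y‖)) :=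
    ((((tendsto_pow_atTop_nhds_zero_of_lt_one (by norm_num) (by norm_num)).const_mul C).const_add
      _).mul_const _)
  have := ge_of_tendsto' hlim (fun m => iter m y)
  simpa using this

/-- splitting into a part with values in `Γ` and a small real part -/
theorem split_small [CompleteSpace E] (T : (n → ℝ) →ₗ[ℝ] W) (hT : Function.Injective T) (D : ℕ)
    (hD : Fintype.card n ≤ D) (hD1 : 1 ≤ D) (r ρ K : ℝ) (hr : 0 < r) (hρ : 4 * ρ ≤ r)
    (hcov : ∀ y : n → ℝ, ∃ x : n → ℤ, ‖T (y - zc x)‖ ≤ ρ) (Γ : AddSubgroup E)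
    (hΓ : ∀ γ ∈ Γ, ‖γ‖ ≤ 3 * K → γ = 0) (L : (n → ℤ) →+ E)
    (h : ∀ x, ‖T (zc x)‖ ≤ 2 * D * r → Cl Γ K (L x)) :
    ∃ R : (n → ℝ) →ₗ[ℝ] E, (∀ x, L x - R (zc x) ∈ Γ) ∧ ∀ y, ‖R y‖ ≤ 2 * K / r * ‖T y‖ := by
  choose! γ hγ hn using h
  have hD' : (1 : ℝ) ≤ D := by exact_mod_cast hD1
  have hrD : r ≤ 2 * D * r := by nlinarith
  obtain ⟨R, hR⟩ := hu_lattice T hT D hD r 0 le_rfl hr.le (⊥ : AddSubgroup E)
    (fun g hg _ => hg) (fun x => L x - γ x) (fun x y hx hy hxy => by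
      refine Cl.of_norm (le_of_eq (norm_eq_zero.mpr ?_))
      apply hΓ
      · have e : L (x + y) - γ (x + y) - (L x - γ x) - (L y - γ y) = γ x + γ y - γ (x + y) := by
          rw [map_add]; abel
        rw [e]
        exact Γ.sub_mem (Γ.add_mem (hγ x hx) (hγ y hy)) (hγ _ hxy)
      · have h1 := norm_sub_le (L (x + y) - γ (x + y) - (L x - γ x)) (L y - γ y)
        have h2 := norm_sub_le (L (x + y) - γ (x + y)) (L x - γ x)
        linarith [hn x hx, hn y hy, hn _ hxy])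
  have hR' : ∀ x, ‖T (zc x)‖ ≤ r → L x - γ x = R (zc x) := by
    intro x hx
    obtain ⟨g, hg, h1⟩ := hR x hx
    rw [AddSubgroup.mem_bot] at hg
    rw [hg, sub_zero, mul_zero] at h1
    exact sub_eq_zero.mp (norm_le_zero_iff.mp h1)
  refine ⟨R, fun x => ?_, norm_le_of_cover T hT r ρ K hr hρ hcov R (fun x hx => ?_)⟩
  · refine gen_of_cover T r ρ hr hρ hcov (Γ.comap (L - R.toAddMonoidHom.comp zc))
      (fun x hx => ?_) x
    show L x - R (zc x) ∈ Γ
    rw [← hR' x hx, sub_sub_cancel]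
    exact hγ x (hx.trans hrD)
  · rw [← hR' x hx]
    exact hn x (hx.trans hrD)

/-- Abstract bilinear estimate of Vinogradov type. `L` is additive on a fine lattice and small
modulo `Γ` on a set `S` all of whose short translates carry weight at least `β`. Then a bounded
multiple of `L` is the sum of a map into `Γ` and a real linear map of small norm. -/
theorem vin_split [CompleteSpace E] (T : (n → ℝ) →ₗ[ℝ] W) (hT : Function.Injective T) (D : ℕ)
    (hD : Fintype.card n ≤ D) (hD1 : 1 ≤ D) (r ρ K : ℝ) (hr : 0 < r) (hρ : 4 * ρ ≤ r)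
    (hK : 0 ≤ K) (hcov : ∀ y : n → ℝ, ∃ x : n → ℤ, ‖T (y - zc x)‖ ≤ ρ) (M : ℕ) (hM : 1 ≤ M)
    (Γ : AddSubgroup E) (hΓ : ∀ γ ∈ Γ, ‖γ‖ ≤ (M : ℝ) ^ 3 * (6 * K) → γ = 0)
    (L : (n → ℤ) →+ E) (μ : (n → ℤ) → ℝ) (hμ : ∀ x, 0 ≤ μ x) (hs : Summable μ)
    (S : Set (n → ℤ)) (c : E) (hS : ∀ s ∈ S, Cl Γ K (L s - c)) (β : ℝ)
    (hβ : ∑' x, μ x < (M + 1) * β)
    (hv : ∀ v, ‖T (zc v)‖ ≤ (M : ℝ) ^ 2 * (2 * D * r) →
      β ≤ ∑' x, S.indicator (fun y => μ (y + v)) x) :
    ∃ q : ℕ, 1 ≤ q ∧ q ≤ M ∧ ∃ R : (n → ℝ) →ₗ[ℝ] E, (∀ x, q • L x - R (zc x) ∈ Γ) ∧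
      ∀ y, ‖R y‖ ≤ 4 * M * K / r * ‖T y‖ := by
  have hM1 : (1 : ℝ) ≤ M := by exact_mod_cast hM
  obtain ⟨q, q1, qM, hq⟩ := one_den Γ L (fun x => ‖T (zc x)‖) (by simp)
    (fun x y => by simp only [map_add]; exact norm_add_le _ _) M hM (2 * K) (2 * D * r)
    (by positivity) (by positivity) (fun γ hγ hn => hΓ γ hγ (by linarith)) (fun v hv' => by
      obtain ⟨i, j, hij, s, hs1, s', hs', e⟩ :=
        translates_meet μ hμ hs S M β hβ v (fun i => hv _ (hv' i))
      refine ⟨i, j, hij, (((hS s hs1).add (hS s' hs').neg).congr ?_).mono (by linarith)⟩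
      rw [e, map_sub]; abel)
  have hqM : (q : ℝ) ≤ M := by exact_mod_cast qM
  obtain ⟨R, hR1, hR2⟩ := split_small T hT D hD hD1 r ρ (q * (2 * K)) hr hρ hcov Γ
    (fun γ hγ hn => hΓ γ hγ (hn.trans (by
      have : (q : ℝ) ≤ (M : ℝ) ^ 3 := hqM.trans (le_self_pow₀ hM1 (by norm_num))
      nlinarith))) (q • L) hq
  refine ⟨q, q1, qM, R, hR1, fun y => (hR2 y).trans ?_⟩
  refine mul_le_mul_of_nonneg_right (div_le_div_of_nonneg_right ?_ hr.le) (norm_nonneg _)
  nlinarith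

end Vale.Agent.P057HU
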