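import Vale.Agent.P057HU.Loc

/-! One denominator: an additive map that is small modulo `Γ` on a dense set is, after
multiplication by one bounded integer, small modulo `Γ` on all short vectors. -/

set_option linter.all false

open Finset Module
open scoped BigOperators

namespace Vale.Agent.P057HU

variable {A E : Type*} [AddCommGroup A] [NormedAddCommGroup E] [NormedSpace ℝ E]

/-- a finite set invariant under a translation kills it -/
theorem card_smul_eq_zero {Z : Type*} [AddCommGroup Z] (Q : Finset Z) (h : Z)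
    (hQ : ∀ a ∈ Q, a + h ∈ Q) : Q.card • h = 0 := by
  classical
  have h1 : Q.image (fun a => a + h) = Q := by
    apply Finset.eq_of_subset_of_card_le
    · intro x hx
      obtain ⟨a, ha, rfl⟩ := Finset.mem_image.mp hx
      exact hQ a ha
    · rw [Finset.card_image_of_injective _ (add_left_injective h)]
  have h2 : ∑ a ∈ Q, (a + h) = ∑ a ∈ Q, a := by
    conv_rhs => rw [← h1]
    rw [Finset.sum_image (fun x _ y _ e => add_left_injective h e)]
  rw [Finset.sum_add_distrib, Finset.sum_const] at h2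
  simpa using h2

/-- torsion of order at most `M` modulo `Γ` -/
def Tor (Γ : AddSubgroup E) (M : ℕ) (a : E) : Prop := ∃ j : ℕ, 1 ≤ j ∧ j ≤ M ∧ j • a ∈ Γ

theorem tor_sep {Γ : AddSubgroup E} {M : ℕ} {K : ℝ}
    (hΓ : ∀ γ ∈ Γ, ‖γ‖ ≤ (M : ℝ) ^ 3 * K → γ = 0) {a b c : E} (ha : Tor Γ M a) (hb : Tor Γ M b)
    (hc : Tor Γ M c) (h : Cl Γ K (a + b - c)) : a + b - c ∈ Γ := by
  obtain ⟨i, i1, iM, hi⟩ := ha
  obtain ⟨j, j1, jM, hj⟩ := hb
  obtain ⟨k, k1, kM, hk⟩ := hc
  obtain ⟨γ, hγ, hn⟩ := h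
  have hm : (i * j * k) • (a + b - c - γ) ∈ Γ := by
    have e : (i * j * k) • (a + b - c - γ) =
        (j * k) • (i • a) + (i * k) • (j • b) - (i * j) • (k • c) - (i * j * k) • γ := by
      simp only [smul_sub, smul_add, smul_smul]
      rw [show j * k * i = i * j * k by ring, show i * k * j = i * j * k by ring]
    rw [e]
    exact Γ.sub_mem (Γ.sub_mem (Γ.add_mem (Γ.nsmul_mem hi _) (Γ.nsmul_mem hj _))
      (Γ.nsmul_mem hk _)) (Γ.nsmul_mem hγ _)
  have h0 := hΓ _ hm (by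
    rw [← Nat.cast_smul_eq_nsmul ℝ, norm_smul, Real.norm_natCast]
    have : ((i * j * k : ℕ) : ℝ) ≤ (M : ℝ) ^ 3 := by
      have : i * j * k ≤ M ^ 3 := by
        calc i * j * k ≤ M * M * M := by gcongr
          _ = M ^ 3 := by ring
      exact_mod_cast this
    exact mul_le_mul this hn (norm_nonneg _) (by positivity))
  rw [← Nat.cast_smul_eq_nsmul ℝ, smul_eq_zero] at h0
  have hne : ((i * j * k : ℕ) : ℝ) ≠ 0 := by
    have : 0 < i * j * k := by positivity
    exact_mod_cast this.ne'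
  have := h0.resolve_left hne
  rw [sub_eq_zero] at this
  rwa [this]

/-- One denominator. Among any `M + 1` vectors of size at most `M ^ 2 r` two have a difference
on which `L` is small modulo `Γ`. -/
theorem one_den (Γ : AddSubgroup E) (L : A →+ E) (nm : A → ℝ) (h0 : nm 0 = 0)
    (hadd : ∀ x y, nm (x + y) ≤ nm x + nm y) (M : ℕ) (hM : 1 ≤ M) (K r : ℝ) (hK : 0 ≤ K)
    (hr : 0 ≤ r) (hΓ : ∀ γ ∈ Γ, ‖γ‖ ≤ (M : ℝ) ^ 3 * (3 * K) → γ = 0)
    (hcov : ∀ v : Fin (M + 1) → A, (∀ i, nm (v i) ≤ (M : ℝ) ^ 2 * r) →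
      ∃ i j, i ≠ j ∧ Cl Γ K (L (v i - v j))) :
    ∃ q : ℕ, 1 ≤ q ∧ q ≤ M ∧ ∀ v, nm v ≤ r → Cl Γ (q * K) (q • L v) := by
  classical
  have hM1 : (1 : ℝ) ≤ M := by exact_mod_cast hM
  have hns : ∀ (j : ℕ) v, nm (j • v) ≤ j * max (nm v) 0 := by
    intro j v
    induction j with
    | zero => simp [h0]
    | succ j ih =>
      rw [succ_nsmul]
      refine (hadd _ _).trans ?_
      push_cast
      linarith [le_max_left (nm v) 0]
  have hτ : ∀ v, nm v ≤ M * r → ∃ a, Tor Γ M a ∧ ‖L v - a‖ ≤ K := by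
    intro v hv
    have key : ∀ j : ℕ, 1 ≤ j → j ≤ M → Cl Γ K (L (j • v)) → ∃ a, Tor Γ M a ∧ ‖L v - a‖ ≤ K := by
      rintro j j1 jM ⟨γ, hγ, hn⟩
      have hj : (1 : ℝ) ≤ j := by exact_mod_cast j1
      have hj0 : (j : ℝ) ≠ 0 := by linarith
      refine ⟨(j : ℝ)⁻¹ • γ, ⟨j, j1, jM, ?_⟩, ?_⟩
      · rwa [← Nat.cast_smul_eq_nsmul ℝ, smul_smul, mul_inv_cancel₀ hj0, one_smul]
      · have e : L v - (j : ℝ)⁻¹ • γ = (j : ℝ)⁻¹ • (L (j • v) - γ) := by
          rw [map_nsmul, ← Nat.cast_smul_eq_nsmul ℝ, smul_sub, smul_smul, inv_mul_cancel₀ hj0,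
            one_smul]
        rw [e, norm_smul, norm_inv, Real.norm_natCast]
        calc (j : ℝ)⁻¹ * ‖L (j • v) - γ‖ ≤ 1 * K :=
              mul_le_mul (inv_le_one_of_one_le₀ hj) hn (norm_nonneg _) (by norm_num)
          _ = K := one_mul K
    obtain ⟨i, j, hij, hc⟩ := hcov (fun i => (i : ℕ) • v) (fun i => by
      refine (hns i v).trans ?_
      have h1 : ((i : ℕ) : ℝ) ≤ M := by exact_mod_cast Nat.lt_succ_iff.mp i.2
      have h2 : max (nm v) 0 ≤ M * r := max_le hv (by positivity)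
      calc ((i : ℕ) : ℝ) * max (nm v) 0 ≤ M * (M * r) :=
            mul_le_mul h1 h2 (le_max_right _ _) (by positivity)
        _ = (M : ℝ) ^ 2 * r := by ring)
    have hi := i.2
    have hj := j.2
    have hne : (i : ℕ) ≠ j := fun e => hij (Fin.ext e)
    rcases lt_or_gt_of_ne hne with hlt | hlt
    · refine key (j - i) (by omega) (by omega) (hc.neg.congr ?_)
      rw [← map_neg, neg_sub, sub_nsmul v hlt.le, sub_eq_add_neg]
    · refine key (i - j) (by omega) (by omega) (hc.congr ?_)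
      rw [sub_nsmul v hlt.le, sub_eq_add_neg]
  choose! τ hτ1 hτ2 using hτ
  let t : A → E ⧸ Γ := fun v => QuotientAddGroup.mk (τ v)
  have tor0 : Tor Γ M (0 : E) := ⟨1, le_rfl, hM, by simp⟩
  have hta : ∀ u v, nm u ≤ M * r → nm v ≤ M * r → nm (u + v) ≤ M * r → t (u + v) = t u + t v := by
    intro u v hu hv huv
    have h1 : Cl Γ (3 * K) (τ u + τ v - τ (u + v)) := by
      refine (((Cl.of_norm (Γ := Γ) (hτ2 _ huv)).add (Cl.of_norm (hτ2 _ hu)).neg).add
        (Cl.of_norm (hτ2 _ hv)).neg |>.congr ?_).mono (le_of_eq (by ring))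
      rw [map_add]; abel
    have h2 := tor_sep hΓ (hτ1 _ hu) (hτ1 _ hv) (hτ1 _ huv) h1
    simp only [t]
    rw [← QuotientAddGroup.mk_add, eq_comm, QuotientAddGroup.eq_iff_sub_mem]
    exact h2
  have hcard : ∀ F : Finset (E ⧸ Γ), (∀ z ∈ F, ∃ v, nm v ≤ M * r ∧ t v = z) → F.card ≤ M := by
    intro F hF
    by_contra hlt
    push Not at hlt
    obtain ⟨F', hF', hc'⟩ := Finset.exists_subset_card_eq (show M + 1 ≤ F.card from hlt)
    let e : Fin (M + 1) ≃ F' := (Finset.equivFinOfCardEq hc').symm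
    choose! w hw1 hw2 using hF
    obtain ⟨i, j, hij, hc⟩ := hcov (fun i => w (e i)) (fun i => by
      refine (hw1 _ (hF' (e i).2)).trans ?_
      nlinarith [mul_nonneg (sub_nonneg.mpr hM1) (mul_nonneg (by linarith : (0 : ℝ) ≤ M) hr)])
    have hi := hw1 _ (hF' (e i).2)
    have hj := hw1 _ (hF' (e j).2)
    have h1 : Cl Γ (3 * K) (τ (w (e i)) + 0 - τ (w (e j))) := by
      refine (((hc.add (Cl.of_norm (hτ2 _ hi)).neg).add
        (Cl.of_norm (hτ2 _ hj))).congr ?_).mono (le_of_eq (by ring))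
      rw [map_sub]; abel
    have h2 := tor_sep hΓ (hτ1 _ hi) tor0 (hτ1 _ hj) h1
    rw [add_zero, ← QuotientAddGroup.eq_iff_sub_mem] at h2
    have h3 : ((e i : F') : E ⧸ Γ) = e j := by
      rw [← hw2 _ (hF' (e i).2), ← hw2 _ (hF' (e j).2)]
      exact h2
    exact hij (e.injective (Subtype.ext h3))
  have hfin : (t '' {v | nm v ≤ M * r}).Finite := by
    by_contra hinf
    obtain ⟨F, hF, hc⟩ := Set.Infinite.exists_subset_card_eq hinf (M + 1)
    have := hcard F (fun z hz => by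
      obtain ⟨v, hv, e⟩ := hF hz
      exact ⟨v, hv, e⟩)
    omega
  let Q : ℕ → Finset (E ⧸ Γ) := fun k =>
    hfin.toFinset.filter (fun z => ∃ v, nm v ≤ k * r ∧ t v = z)
  have hQ : ∀ k : ℕ, k ≤ M → ∀ z, z ∈ Q k ↔ ∃ v, nm v ≤ k * r ∧ t v = z := by
    intro k hk z
    have hk' : (k : ℝ) * r ≤ M * r := by
      have : (k : ℝ) ≤ M := by exact_mod_cast hk
      gcongr
    simp only [Q, Finset.mem_filter, Set.Finite.mem_toFinset, Set.mem_image, Set.mem_setOf_eq]
    exact ⟨fun h => h.2, fun ⟨v, hv, e⟩ => ⟨⟨v, hv.trans hk', e⟩, v, hv, e⟩⟩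
  have hQM : ∀ k, (Q k).card ≤ M := fun k => hcard _ (fun z hz => by
    obtain ⟨v, hv, e⟩ := hfin.mem_toFinset.mp (Finset.mem_filter.mp hz).1
    exact ⟨v, hv, e⟩)
  have hQ0 : ∀ k, k ≤ M → 1 ≤ (Q k).card := fun k hk =>
    Finset.card_pos.mpr ⟨t 0, (hQ k hk _).mpr ⟨0, by rw [h0]; positivity, rfl⟩⟩
  have hsub : ∀ k, k + 1 ≤ M → Q k ⊆ Q (k + 1) := by
    intro k hk z hz
    obtain ⟨v, hv, e⟩ := (hQ k (by omega) z).mp hz
    exact (hQ (k + 1) hk z).mpr ⟨v, hv.trans (by push_cast; linarith), e⟩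
  have hex : ∃ k, k + 1 ≤ M ∧ (Q (k + 1)).card ≤ (Q k).card := by
    by_contra hno
    push Not at hno
    have : ∀ k, k ≤ M → k + 1 ≤ (Q k).card := by
      intro k
      induction k with
      | zero => intro h; exact hQ0 0 h
      | succ k ih => intro h; have := hno k h; have := ih (by omega); omega
    have := this M le_rfl
    have := hQM M
    omega
  obtain ⟨k, hk, hle⟩ := hex
  have heq := Finset.eq_of_subset_of_card_le (hsub k hk) hle
  refine ⟨(Q k).card, hQ0 k (by omega), hQM k, fun v hv => ?_⟩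
  have hkM : ((k : ℝ) + 1) * r ≤ M * r := by
    have : (k : ℝ) + 1 ≤ M := by exact_mod_cast hk
    gcongr
  have hk0 : (0 : ℝ) ≤ k * r := by positivity
  have hvM : nm v ≤ M * r := by nlinarith
  have hz := card_smul_eq_zero (Q k) (t v) (fun a ha => by
    obtain ⟨u, hu, rfl⟩ := (hQ k (by omega) a).mp ha
    have huv : nm (u + v) ≤ (k + 1) * r := (hadd u v).trans (by linarith)
    rw [heq, ← hta u v (by linarith) hvM (huv.trans hkM)]
    exact (hQ (k + 1) hk _).mpr ⟨u + v, by push_cast; exact huv, rfl⟩)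
  refine ⟨(Q k).card • τ v, ?_, ?_⟩
  · rw [← QuotientAddGroup.eq_zero_iff, QuotientAddGroup.mk_nsmul]
    exact hz
  · rw [← smul_sub, ← Nat.cast_smul_eq_nsmul ℝ, norm_smul, Real.norm_natCast]
    exact mul_le_mul_of_nonneg_left (hτ2 v hvM) (by positivity)

/-- translates of a set of large weight intersect -/
theorem translates_meet (μ : A → ℝ) (hμ : ∀ x, 0 ≤ μ x) (hs : Summable μ) (S : Set A) (M : ℕ)
    (β : ℝ) (hβ : ∑' x, μ x < (M + 1) * β) (v : Fin (M + 1) → A)
    (hv : ∀ i, β ≤ ∑' x, S.indicator (fun y => μ (y + v i)) x) :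
    ∃ i j, i ≠ j ∧ ∃ s ∈ S, ∃ s' ∈ S, v i - v j = s - s' := by
  classical
  by_contra hno
  push Not at hno
  let f : Fin (M + 1) → A → ℝ := fun i x => if x - v i ∈ S then μ x else 0
  have hf : ∀ i, Summable (f i) := fun i =>
    Summable.of_nonneg_of_le (fun x => by simp only [f]; split_ifs; exacts [hμ x, le_rfl])
      (fun x => by simp only [f]; split_ifs; exacts [le_rfl, hμ x]) hs
  have he : ∀ i, ∑' x, S.indicator (fun y => μ (y + v i)) x = ∑' x, f i x := by
    intro i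
    rw [← (Equiv.addRight (v i)).tsum_eq (f i)]
    refine tsum_congr fun x => ?_
    simp [f, Set.indicator_apply]
  have hp : ∀ x, ∑ i, f i x ≤ μ x := by
    intro x
    by_cases hx : ∃ i, x - v i ∈ S
    · obtain ⟨i, hi⟩ := hx
      rw [Finset.sum_eq_single i]
      · simp [f, hi]
      · intro j _ hji
        simp only [f]
        rw [if_neg]
        intro hj
        exact hno j i hji _ hi _ hj (by abel)
      · simp
    · push Not at hx
      simp [f, hx, hμ x]
  have h1 : ∑ i, ∑' x, f i x ≤ ∑' x, μ x := by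
    rw [← Summable.tsum_finsetSum (fun i _ => hf i)]
    exact Summable.tsum_le_tsum hp (summable_sum fun i _ => hf i) hs
  have h2 : ∑ _i : Fin (M + 1), β ≤ ∑ i, ∑' x, f i x :=
    Finset.sum_le_sum fun i _ => (he i) ▸ hv i
  simp at h2
  linarith

end Vale.Agent.P057HU
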